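import Vale.Agent.P269.Ch.Chern
import Vale.Agent.P269.Z.Eul0
import Vale.Agent.P269.Holo.Act

set_option linter.all false

/-!
# Euler cocycles with supports; the bundles of the statement
-/

namespace Vale.Agent.P269.Ch

open Set Function Topology Filter Vale.Agent.P291Z Vale.Agent.P269.Orb

variable {Y'' Y' Y : Sp}

section eul

namespace VB.IsSec

variable {E : VB Y} {s : Y.T → E.W}

theorem preimage_Z (h : E.IsSec s) : h.mor.map ⁻¹' E.Z = Y.π '' {t | s t = 0} := by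
  ext x
  obtain ⟨t, rfl⟩ := Y.surj x
  rw [mem_preimage, Mor.map_π, Y.isQuo.mem_image (A := {t | s t = 0}) fun g t (ht : s t = 0) =>
    show s (g • t) = 0 by rw [h.eqv, ht, smul_zero]]
  exact mk_mem_Z

theorem mem_zeros (h : E.IsSec s) {t : Y.T} : Y.π t ∈ Y.π '' {t | s t = 0} ↔ s t = 0 := by
  rw [← h.preimage_Z, mem_preimage, Mor.map_π]
  exact mk_mem_Z

theorem isClosed_zeros (h : E.IsSec s) : IsClosed (Y.π '' {t | s t = 0}) :=
  h.preimage_Z ▸ E.isOVB.isClosed.preimage h.mor.map.continuous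

theorem cohom_pull (h : E.IsSec s) {t : Coch E.tot.X} (ht : IsThom E.Z E.ch t) :
    Cohom (Y.π '' {t | s t = 0}) (pull h.mor.map t) h.eul :=
  h.preimage_Z ▸ (E.isOVB.thom_unique ht E.isThom).pull h.mor.map.continuous

theorem pb (h : E.IsSec s) (m : Mor Y' Y) : (E.pb m).IsSec fun t => s (m.f t) :=
  ⟨fun _ => h.mem _, h.cont.comp m.cf, fun g t => (congrArg s (m.eqv g t)).trans (h.eqv _ _)⟩

theorem add {s' : Y.T → E.W} (h : E.IsSec s) (h' : E.IsSec s') : E.IsSec fun t => s t + s' t :=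
  ⟨fun t => add_mem (h.mem t) (h'.mem t), h.cont.add h'.cont, fun g t => by
    rw [h.eqv, h'.eqv, smul_add]⟩

theorem smul (h : E.IsSec s) {f : Y.T → ℂ} (hf : Continuous f) (he : ∀ (g : Y.G) t, f (g • t) = f t) :
    E.IsSec fun t => f t • s t :=
  ⟨fun t => (E.F t).smul_mem _ (h.mem t), hf.smul h.cont, fun g t => by
    rw [h.eqv, he, smul_comm g]⟩

theorem sum {E' : VB Y} {s' : Y.T → E'.W} (h : E.IsSec s) (h' : E'.IsSec s') :
    (E.sum E').IsSec fun t => (s t, s' t) :=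
  ⟨fun t => ⟨h.mem t, h'.mem t⟩, h.cont.prodMk h'.cont, fun g t => Prod.ext (h.eqv g t) (h'.eqv g t)⟩

end VB.IsSec

theorem Hom.isSec {E' E : VB Y} {A : Y.T → E'.W →ₗ[ℂ] E.W} (h : Hom (Mor.id Y) E' E A)
    {s : Y.T → E'.W} (hs : E'.IsSec s) : E.IsSec fun t => A t (s t) :=
  ⟨fun t => h.mem t _ (hs.mem t), h.continuous continuous_id hs.cont hs.mem, fun g t => by
    rw [hs.eqv, h.eqv g t _ (hs.mem t)]; rfl⟩

theorem Hom.sec_map {m : Mor Y' Y} {E' : VB Y'} {E : VB Y} {A : Y'.T → E'.W →ₗ[ℂ] E.W}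
    (h : Hom m E' E A) {s' : Y'.T → E'.W} {s : Y.T → E.W} (hs' : E'.IsSec s') (hs : E.IsSec s)
    (e : ∀ t, A t (s' t) = s (m.f t)) : h.mor.map ∘ hs'.mor.map = hs.mor.map ∘ m.map :=
  funext fun x => by
    obtain ⟨t, rfl⟩ := Y'.surj x
    rw [comp_apply, comp_apply, Mor.map_π, Mor.map_π, Mor.map_π, Mor.map_π]
    exact congrArg E.tot.π (Subtype.ext (Prod.ext rfl (e t)))

/-- **Naturality of Euler cocycles, with supports** -/
theorem Iso.cohom_eul {m : Mor Y' Y} {E' : VB Y'} {E : VB Y} {A : Y'.T → E'.W →ₗ[ℂ] E.W}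
    (h : Iso m E' E A) {s' : Y'.T → E'.W} {s : Y.T → E.W} (hs' : E'.IsSec s') (hs : E.IsSec s)
    (e : ∀ t, A t (s' t) = s (m.f t)) :
    Cohom (Y'.π '' {t | s' t = 0}) hs'.eul (pull m.map hs.eul) := by
  have := (hs'.cohom_pull (h.isThom E.isThom)).symm
  rwa [pull_pull, h.sec_map hs' hs e, ← pull_pull] at this

theorem Iso.cohom_eul' {E' E : VB Y} {A : Y.T → E'.W →ₗ[ℂ] E.W}
    (h : Iso (Mor.id Y) E' E A) {s' : Y.T → E'.W} {s : Y.T → E.W} (hs' : E'.IsSec s')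
    (hs : E.IsSec s) (e : ∀ t, A t (s' t) = s t) :
    Cohom (Y.π '' {t | s' t = 0}) hs'.eul hs.eul := by
  have := h.cohom_eul hs' hs e
  rwa [show ⇑(Mor.id Y).map = id from funext (Mor.map_id Y), pull_id] at this

theorem cohom_eul_sum {E₁ E₂ : VB Y} {s₁ : Y.T → E₁.W} {s₂ : Y.T → E₂.W} (h₁ : E₁.IsSec s₁)
    (h₂ : E₂.IsSec s₂) :
    Cohom (Y.π '' {t | s₁ t = 0 ∧ s₂ t = 0}) (h₁.sum h₂).eul (h₁.eul * h₂.eul) := by
  have := ((h₁.sum h₂).cohom_pull (isThom_sum E₁ E₂)).symm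
  rw [map_mul, pull_pull, pull_pull, (hom_fst E₁ E₂).sec_map (h₁.sum h₂) h₁ fun _ => rfl,
    (hom_snd E₁ E₂).sec_map (h₁.sum h₂) h₂ fun _ => rfl,
    show ⇑(Mor.id Y).map = id from funext (Mor.map_id Y)] at this
  exact this.mono (image_mono fun t ht => Prod.mk_eq_zero.1 ht)

variable {E' E E'' : VB Y} {A : Y.T → E'.W →ₗ[ℂ] E.W} {B : Y.T → E.W →ₗ[ℂ] E''.W}

/-- an exact sequence splits -/
theorem Exact.exists_split (h : Exact E' E E'' A B) :
    ∃ (R : Y.T → E.W →ₗ[ℂ] E'.W) (S : Y.T → E''.W →ₗ[ℂ] E.W), Hom (Mor.id Y) E E' R ∧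
      Hom (Mor.id Y) E'' E S ∧ (∀ t w, w ∈ E'.F t → R t (A t w) = w) ∧
      (∀ t w, w ∈ E''.F t → B t (S t w) = w) ∧ (∀ t w, w ∈ E''.F t → R t (S t w) = 0) ∧
      (∀ t w, w ∈ E.F t → A t (R t w) + S t (B t w) = w) ∧
      Iso (Mor.id Y) E (E'.sum E'') fun t => (R t).prod (B t) := by
  obtain ⟨R, h1, h2, h3, h4⟩ := h.hA.exists_retr h.inj
  have hR : Hom (Mor.id Y) E E' fun t => (R t : E.W →ₗ[ℂ] E'.W) :=
    Hom.of_continuous (fun t w _ => h3 t w) ((h1.comp continuous_fst).clm_apply continuous_snd)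
      fun g t w _ => h2 g t w
  have h5 : ∀ t w, w ∈ E'.F t → B t (A t w) = 0 := fun t w hw =>
    (h.ex t _ (h.hA.mem t w hw)).2 ⟨w, hw, rfl⟩
  have hI : Iso (Mor.id Y) E (E'.sum E'') fun t => (R t : E.W →ₗ[ℂ] E'.W).prod (B t) := by
    refine ⟨⟨fun t w hw => ⟨h3 t w, h.hB.mem t w hw⟩, hR.cont.prodMk h.hB.cont,
      fun g t w hw => Prod.ext (h2 g t w) (h.hB.eqv g t w hw)⟩, fun t w hw e => ?_,
      fun t w hw => ?_⟩
    · obtain ⟨v, hv, rfl⟩ := (h.ex t w hw).1 (congrArg Prod.snd e)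
      rw [show v = 0 from (h4 t v hv).symm.trans (congrArg Prod.fst e), map_zero]
    · obtain ⟨v, h6, h7⟩ := h.surj t w.2 hw.2
      have h8 : w.1 - R t v ∈ E'.F t := sub_mem hw.1 (h3 t v)
      refine ⟨v + A t (w.1 - R t v), add_mem h6 (h.hA.mem t _ h8), Prod.ext ?_ ?_⟩
      · show R t (v + A t (w.1 - R t v)) = w.1
        rw [map_add, h4 t _ h8, add_sub_cancel]
      · show B t (v + A t (w.1 - R t v)) = w.2
        rw [map_add, h5 t _ h8, add_zero, h7]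
  obtain ⟨S, h6, h7, h8⟩ := hI.exists_symm
  have h9 : Hom (Mor.id Y) E'' (E'.sum E'') fun _ => LinearMap.inr ℂ E'.W E''.W :=
    Hom.of_continuous (fun _ _ h => ⟨zero_mem _, h⟩) (continuous_const.prodMk continuous_snd)
      fun g _ _ _ => Prod.ext (smul_zero g).symm rfl
  have h10 : ∀ t w, w ∈ E''.F t → (R t (S t (0, w)), B t (S t (0, w))) = (0, w) := fun t w hw =>
    h8 t (0, w) ⟨zero_mem _, hw⟩
  refine ⟨_, _, hR, h6.toHom.comp h9, h4, fun t w hw => congrArg Prod.snd (h10 t w hw),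
    fun t w hw => congrArg Prod.fst (h10 t w hw), fun t w hw => ?_, hI⟩
  have h11 := h.hB.mem t w hw
  have h12 : S t (0, B t w) ∈ E.F t := h6.mem t _ ⟨zero_mem _, h11⟩
  have h13 := h.hA.mem t _ (h3 t w)
  refine sub_eq_zero.1 (hI.inj t _ (sub_mem (add_mem h13 h12) hw) (Prod.ext ?_ ?_))
  · show R t (A t (R t w) + S t (0, B t w) - w) = 0
    rw [map_sub, map_add, h4 t _ (h3 t w), (Prod.mk.inj (h10 t _ h11)).1, add_zero, sub_self]
  · show B t (A t (R t w) + S t (0, B t w) - w) = 0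
    rw [map_sub, map_add, h5 t _ (h3 t w), (Prod.mk.inj (h10 t _ h11)).2, zero_add, sub_self]

theorem cohom_mul_of_hcls {X : Type} [TopologicalSpace X] {a c c' : Coch X}
    (ha : supp (δ a) = ∅) (hc : supp (δ c) = ∅) (hc' : supp (δ c') = ∅) (e : hcls c = hcls c') :
    Cohom (supp a) (a * c) (a * c') := by
  have : Cohom univ c c' := by
    obtain ⟨b, hb⟩ := (hcls_eq_zero ((Zs X).sub_mem hc hc')).1 (by
      rw [hcls_sub hc hc', e, sub_self])
    exact ⟨b, subset_univ _, hb⟩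
  exact (this.mul_left ha).mono inter_subset_left

/-- **The Whitney formula with supports**: a section with values in a subbundle -/
theorem Exact.cohom_eul (h : Exact E' E E'' A B) {s' : Y.T → E'.W} {s : Y.T → E.W}
    (hs' : E'.IsSec s') (hs : E.IsSec s) (e : ∀ t, A t (s' t) = s t) {c : Coch Y.X}
    (hc : supp (δ c) = ∅) (hc' : hcls c = E''.eu) :
    Cohom (Y.π '' {t | s' t = 0}) hs.eul (hs'.eul * c) := by
  obtain ⟨R, S, -, -, h1, -, -, -, h2⟩ := h.exists_split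
  refine ((h2.cohom_eul' hs (hs'.sum E''.isSec_zero) fun t => ?_).mono (image_mono fun t ht => ?_)).trans
    (((cohom_eul_sum hs' E''.isSec_zero).mono (image_mono fun _ h => h.1)).trans
      ((cohom_mul_of_hcls hs'.isCo.cocycle E''.isSec_zero.isCo.cocycle hc
        (E''.isSec_zero.hcls_eul.trans hc'.symm)).mono hs'.isCo.supp))
  · rw [← e]
    exact Prod.ext (h1 t _ (hs'.mem t)) ((h.ex t _ (h.hA.mem t _ (hs'.mem t))).2 ⟨_, hs'.mem t, rfl⟩)
  · exact h.inj t _ (hs'.mem t) ((e t).trans ht)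

/-- **The Whitney formula with supports**: the general case -/
theorem Exact.exists_cohom_eul (h : Exact E' E E'' A B) {s : Y.T → E.W} (hs : E.IsSec s) :
    ∃ (s' : Y.T → E'.W) (hs' : E'.IsSec s'), (∀ t w, w ∈ E'.F t → A t w = s t → s' t = w) ∧
      (∀ t, s' t = 0 → B t (s t) = 0 → s t = 0) ∧
      Cohom (Y.π '' {t | s t = 0}) hs.eul (hs'.eul * (h.hB.isSec hs).eul) := by
  obtain ⟨R, S, hR, -, h1, -, -, h3, h2⟩ := h.exists_split
  have h4 : ∀ t, R t (s t) = 0 → B t (s t) = 0 → s t = 0 := fun t e e' => by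
    rw [← h3 t _ (hs.mem t), e, e', map_zero, map_zero, add_zero]
  exact ⟨_, hR.isSec hs, fun t w hw e => e ▸ h1 t w hw, h4,
    (h2.cohom_eul' hs ((hR.isSec hs).sum (h.hB.isSec hs)) fun t => rfl).trans
      ((cohom_eul_sum _ _).mono (image_mono fun t ht => h4 t ht.1 ht.2))⟩

/-- a surjective bundle map is part of an exact sequence -/
theorem Hom.exists_exact (h : Hom (Mor.id Y) E E'' B)
    (surj : ∀ t w, w ∈ E''.F t → ∃ w' ∈ E.F t, B t w' = w) :
    ∃ hr : ∀ t, Module.finrank ℂ (E.F t ⊓ LinearMap.ker (B t) : Submodule ℂ E.W) = E.r - E''.r,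
      Exact (h.ker _ hr) E E'' (fun _ => LinearMap.id) B := by
  refine ⟨fun t => ?_, Hom.of_continuous (fun _ _ h => h.1) continuous_snd
    fun _ _ _ _ => rfl, h, fun _ _ _ h => h, surj, fun t w hw =>
      ⟨fun h => ⟨w, ⟨hw, h⟩, rfl⟩, by rintro ⟨w, h, rfl⟩; exact h.2⟩⟩
  have := finrank_inf_ker (E.F t) (B t)
  rw [show (E.F t).map (B t) = E''.F t from le_antisymm
    (by rintro _ ⟨w, hw, rfl⟩; exact h.mem t w hw) (surj t), E''.rank, E.rank] at this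
  omega

/-- a surjective bundle map has a section -/
theorem Hom.exists_sect (h : Hom (Mor.id Y) E E'' B)
    (surj : ∀ t w, w ∈ E''.F t → ∃ w' ∈ E.F t, B t w' = w) :
    ∃ S : Y.T → E''.W →ₗ[ℂ] E.W, Hom (Mor.id Y) E'' E S ∧ ∀ t w, w ∈ E''.F t → B t (S t w) = w := by
  obtain ⟨hr, h1⟩ := h.exists_exact surj
  obtain ⟨-, S, -, h2, -, h3, -⟩ := h1.exists_split
  exact ⟨S, h2, h3⟩

/-- an injective bundle map has a cokernel -/
theorem Hom.exists_coker (h : Hom (Mor.id Y) E' E A) (inj : ∀ t w, w ∈ E'.F t → A t w = 0 → w = 0) :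
    ∃ (E'' : VB Y) (B : Y.T → E.W →ₗ[ℂ] E''.W), E''.r = E.r - E'.r ∧ Exact E' E E'' A B := by
  obtain ⟨R, h1, h2, h3, h4⟩ := h.exists_retr inj
  have hR : Hom (Mor.id Y) E E' fun t => (R t : E.W →ₗ[ℂ] E'.W) :=
    Hom.of_continuous (fun t w _ => h3 t w) ((h1.comp continuous_fst).clm_apply continuous_snd)
      fun g t w _ => h2 g t w
  obtain ⟨hr, -⟩ := hR.exists_exact fun t w hw => ⟨_, h.mem t w hw, h4 t w hw⟩
  have h5 := h.comp hR
  refine ⟨hR.ker _ hr, fun t => LinearMap.id - A t ∘ₗ (R t : E.W →ₗ[ℂ] E'.W), rfl, h,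
    ⟨fun t w hw => ⟨sub_mem hw (h5.mem t w hw), ?_⟩,
      (continuous_snd.comp continuous_subtype_val).sub h5.cont, fun g t w hw => ?_⟩, inj,
    fun t w hw => ⟨w, hw.1, ?_⟩, fun t w hw => ⟨fun e => ⟨_, h3 t w, (sub_eq_zero.1 e).symm⟩, ?_⟩⟩
  · show R t (w - A t (R t w)) = 0
    rw [map_sub, h4 t _ (h3 t w), sub_self]
  · exact (congrArg (g • w - ·) (h5.eqv g t w hw)).trans (smul_sub g _ _).symm
  · show w - A t (R t w) = w
    rw [show R t w = 0 from hw.2, map_zero, sub_zero]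
  · rintro ⟨v, hv, rfl⟩
    show A t v - A t (R t (A t v)) = 0
    rw [h4 t v hv, sub_self]

/-- the Euler cocycle in the presentation by the orbit space -/
theorem eul_eq (E : VB Y) (s : Y.T →[Y.G] E.W) (hs : E.IsSec s) {φ : Q Y.G Y.T → Y.X}
    (hφ : ∀ t, φ (Q.mk Y.G t) = Y.π t) : eul E.V s hs.mem = pull φ hs.eul := by
  rw [VB.IsSec.eul, pull_pull]
  refine congrArg (fun f => pull f E.th) (funext fun x => ?_)
  obtain ⟨t, rfl⟩ := Q.isOpenQuotientMap.surjective x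
  rw [comp_apply, hφ, Mor.map_π]
  rfl

end eul

section tot

variable {A W P : Type} [NormedRing A] [NormedAlgebra ℂ A] [NormedAddCommGroup W] [NormedSpace ℂ W]
  [AddCommGroup P] [Module ℂ P] [TopologicalSpace P] {act : A → W → W} {S : Set W}

/-- An identification of `Y` with the orbit space `Quo act S`. -/
structure Pres (Y : Sp) (act : A → W → W) (S : Set W) where
  /-- the group elements as units -/
  u : Y.G → A
  /-- the points as vectors -/
  i : Y.T → W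
  /-- the identification of the orbit spaces -/
  e : C(Quo act S, Y.X)
  emb : IsEmbedding i
  mem : ∀ t, i t ∈ S
  surj : ∀ x ∈ S, ∃ t, i t = x
  unit : ∀ g, IsUnit (u g)
  usurj : ∀ a, IsUnit a → ∃ g, u g = a
  eqv : ∀ g t, i (g • t) = act (u g) (i t)
  map : ∀ t, e (Quo.mk act ⟨i t, mem t⟩) = Y.π t

/-- the presentation of `Quo act S` -/
noncomputable def spA [Holo.IsAct act S] (ho : Orb Aˣ (Holo.Sp act S)) : Sp :=
  Sp.of ho ⟨Holo.Sp.isOpenQuotientMap_mk, fun _ _ => Holo.Sp.mk_eq_iff⟩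

/-- the tautological identification -/
noncomputable def presA [Holo.IsAct act S] (ho : Orb Aˣ (Holo.Sp act S)) : Pres (spA ho) act S where
  u := Units.val
  i := Holo.Sp.val (act := act)
  e := ContinuousMap.id _
  emb := Holo.Sp.isEmbedding_val
  mem := Holo.Sp.val_mem (act := act)
  surj x hx := ⟨Holo.Sp.of act x hx, rfl⟩
  unit := Units.isUnit
  usurj _ h := h
  eqv _ _ := rfl
  map _ := rfl

namespace Pres

variable (p : Pres Y act S)

/-- the orbit of a point -/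
def mk' (t : Y.T) : Quo act S := Quo.mk act ⟨p.i t, p.mem t⟩

theorem map' (t : Y.T) : p.e (p.mk' t) = Y.π t := p.map t

theorem isQuotientMap_mk' : IsQuotientMap p.mk' :=
  isQuotientMap_quot_mk.comp (IsHomeomorph.isQuotientMap
    (isHomeomorph_iff_isEmbedding_surjective.2 ⟨p.emb.codRestrict _ p.mem, fun x =>
      (p.surj x.1 x.2).imp fun _ => Subtype.ext⟩))

theorem mk'_smul (g : Y.G) (t : Y.T) : p.mk' (g • t) = p.mk' t :=
  (Quot.sound ⟨_, p.unit g, p.eqv g t⟩).symm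

theorem mk'_eq {t t' : Y.T} : p.mk' t = p.mk' t' ↔ Y.π t = Y.π t' :=
  ⟨fun h => by rw [← p.map', h, p.map'], fun h => by
    obtain ⟨g, rfl⟩ := (Y.fib _ _).1 h
    rw [p.mk'_smul]⟩

theorem isHomeomorph_e : IsHomeomorph p.e := by
  obtain ⟨k, hk⟩ := Y.isQuo.exists_lift p.mk' p.mk'_smul
  refine isHomeomorph_iff_exists_inverse.2 ⟨p.e.continuous, k, fun x => ?_, fun x => ?_,
    Y.isQuo.continuous_lift p.isQuotientMap_mk'.continuous hk⟩
  · obtain ⟨t, rfl⟩ := p.isQuotientMap_mk'.surjective x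
    rw [p.map', hk]
  · obtain ⟨t, rfl⟩ := Y.surj x
    rw [hk, p.map']

theorem isQuo : IsQuo Y.G p.mk' := by
  refine ⟨⟨p.isQuotientMap_mk'.surjective, p.isQuotientMap_mk'.continuous, fun U hU => ?_⟩,
    fun _ _ => p.mk'_eq.trans (Y.fib _ _)⟩
  have := (Y.quo.isOpenMap U hU).preimage p.e.continuous
  rwa [show Y.π = p.e ∘ p.mk' from (funext p.map').symm, image_comp,
    p.isHomeomorph_e.injective.preimage_image] at this

include p in
theorem nice : Nice (Quo act S) := p.isQuo.nice Y.orb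

theorem exists_out (z : Quo act S) : ∃ t, p.i t = z.out.1 ∧ p.mk' t = z := by
  obtain ⟨t, ht⟩ := p.surj _ z.out.2
  exact ⟨t, ht, (congrArg (Quo.mk act) (Subtype.ext ht)).trans (Quot.out_eq z)⟩

end Pres

/-- `E` is a model of the bundle with fibres `B x / N x`. -/
structure IsMod (p : Pres Y act S) (ρ : A → P → P) (B N : W → Submodule ℂ P)
    (E₀ E : VB Y) (ι : E₀.W →ₗ[ℂ] P) (M : Y.T → E₀.W →ₗ[ℂ] E.W) : Prop where
  emb : IsEmbedding ι
  map : ∀ t, (E₀.F t).map ι = B (p.i t)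
  eqv : ∀ (g : Y.G) t w, w ∈ E₀.F t → ι (g • w) - ρ (p.u g) (ι w) ∈ N (p.i (g • t))
  le : ∀ t, N (p.i t) ≤ B (p.i t)
  hom : Hom (Mor.id Y) E₀ E M
  surj : ∀ t w, w ∈ E.F t → ∃ w' ∈ E₀.F t, M t w' = w
  ker : ∀ t w, w ∈ E₀.F t → (M t w = 0 ↔ ι w ∈ N (p.i t))

namespace IsMod

variable {p : Pres Y act S} {ρ : A → P → P} {B N : W → Submodule ℂ P}
  {E₀ E : VB Y} {ι : E₀.W →ₗ[ℂ] P} {M : Y.T → E₀.W →ₗ[ℂ] E.W} (h : IsMod p ρ B N E₀ E ι M)
include h

theorem mem {t : Y.T} {w : E₀.W} (hw : w ∈ E₀.F t) : ι w ∈ B (p.i t) := (h.map t).le ⟨w, hw, rfl⟩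

/-- a point of the total space -/
def tp (h : IsMod p ρ B N E₀ E ι M) (y : E₀.V) : Tot act ρ S B N :=
  Quot.mk _ ⟨(p.i y.1.1, ι y.1.2), p.mem _, h.mem y.2⟩

/-- a point of the total space of the model -/
def tq (h : IsMod p ρ B N E₀ E ι M) (y : E₀.V) : E.tot.X :=
  E.tot.π (⟨(y.1.1, M y.1.1 y.1.2), h.hom.mem _ _ y.2⟩ : E.V)

theorem exists_pt (z : {z : W × P // z.1 ∈ S ∧ z.2 ∈ B z.1}) :
    ∃ y : E₀.V, p.i y.1.1 = z.1.1 ∧ ι y.1.2 = z.1.2 := by
  obtain ⟨t, ht⟩ := p.surj _ z.2.1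
  obtain ⟨w, h1, h2⟩ := (h.map t).ge (ht ▸ z.2.2)
  exact ⟨⟨(t, w), h1⟩, ht, h2⟩

theorem isQuotientMap_tp : IsQuotientMap h.tp :=
  isQuotientMap_quot_mk.comp (IsHomeomorph.isQuotientMap
    (isHomeomorph_iff_isEmbedding_surjective.2
      ⟨IsEmbedding.subtypeVal.of_comp_iff.1 ((p.emb.prodMap h.emb).comp IsEmbedding.subtypeVal),
        fun z => (h.exists_pt z).imp fun _ e => Subtype.ext (Prod.ext e.1 e.2)⟩))

theorem rel_iff (y y' : E₀.V) : (∃ a, IsUnit a ∧ p.i y'.1.1 = act a (p.i y.1.1) ∧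
    ι y'.1.2 - ρ a (ι y.1.2) ∈ N (p.i y'.1.1)) ↔ h.tq y = h.tq y' := by
  obtain ⟨⟨x, w⟩, hw⟩ := y
  obtain ⟨⟨x', w'⟩, hw'⟩ := y'
  have h1 : ∀ g : Y.G, g • x = x' →
      (ι w' - ρ (p.u g) (ι w) ∈ N (p.i x') ↔ g • M x w = M x' w') := by
    rintro g rfl
    rw [← (N _).sub_mem_iff_left (h.eqv g x w hw), sub_sub_sub_cancel_right, ← map_sub,
      ← h.ker _ _ (sub_mem hw' (E₀.inv g x w hw)), map_sub, h.hom.eqv g x w hw, sub_eq_zero, eq_comm]
    rfl
  refine Iff.trans ⟨?_, ?_⟩ (E.tot.fib _ _).symm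
  · rintro ⟨a, ha, h2, h3⟩
    obtain ⟨g, rfl⟩ := p.usurj a ha
    have h4 : g • x = x' := p.emb.injective ((p.eqv g x).trans h2.symm)
    exact ⟨g, Subtype.ext (Prod.ext h4 ((h1 g h4).1 h3))⟩
  · rintro ⟨g : Y.G, hg⟩
    have h4 : g • x = x' := congrArg (·.1.1) hg
    exact ⟨_, p.unit g, h4 ▸ p.eqv g x, (h1 g h4).2 (congrArg (·.1.2) hg)⟩

theorem tp_eq {y y' : E₀.V} : h.tp y = h.tp y' ↔ h.tq y = h.tq y' := by
  refine ⟨fun e => ?_, fun e => Quot.sound ((h.rel_iff y y').2 e)⟩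
  choose u h1 h2 using h.exists_pt
  have h3 : ∀ y : E₀.V, u ⟨(p.i y.1.1, ι y.1.2), p.mem _, h.mem y.2⟩ = y := fun y =>
    Subtype.ext (Prod.ext (p.emb.injective (h1 _)) (h.emb.injective (h2 _)))
  have h4 := congrArg (Quot.lift (fun z => h.tq (u z)) fun z z' hz =>
    (h.rel_iff (u z) (u z')).1 (by rwa [h1, h1, h2, h2])) e
  exact (congrArg h.tq (h3 y)).symm.trans (h4.trans (congrArg h.tq (h3 y')))

theorem isQuotientMap_tq : IsQuotientMap h.tq := by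
  obtain ⟨R, h1, h2⟩ := h.hom.exists_sect h.surj
  exact E.tot.quo.isQuotientMap.comp (IsQuotientMap.of_inverse h1.mor.cf h.hom.mor.cf
    fun y => Subtype.ext (Prod.ext rfl (h2 _ _ y.2)))

theorem exists_homeo : ∃ k : Tot act ρ S B N ≃ₜ E.tot.X, ∀ y, k (h.tp y) = h.tq y := by
  have h1 := h.isQuotientMap_tp
  have h2 := h.isQuotientMap_tq
  have h3 : ∀ y, h.tq (surjInv h1.surjective (h.tp y)) = h.tq y :=
    fun y => h.tp_eq.1 (surjInv_eq _ _)
  have h4 : ∀ y, h.tp (surjInv h2.surjective (h.tq y)) = h.tp y :=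
    fun y => h.tp_eq.2 (surjInv_eq _ _)
  refine ⟨⟨⟨fun z => h.tq (surjInv h1.surjective z), fun z => h.tp (surjInv h2.surjective z),
    fun z => ?_, fun z => ?_⟩, h1.continuous_iff.2 (h2.continuous.congr fun y => (h3 y).symm),
    h2.continuous_iff.2 (h1.continuous.congr fun y => (h4 y).symm)⟩, h3⟩
  · obtain ⟨y, rfl⟩ := h1.surjective z
    exact (congrArg (fun z => h.tp (surjInv h2.surjective z)) (h3 y)).trans (h4 y)
  · obtain ⟨y, rfl⟩ := h2.surjective z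
    exact (congrArg (fun z => h.tq (surjInv h1.surjective z)) (h4 y)).trans (h3 y)

/-- the identification of the total spaces -/
noncomputable def homeo : Tot act ρ S B N ≃ₜ E.tot.X := h.exists_homeo.choose

theorem homeo_tp (y : E₀.V) : h.homeo (h.tp y) = h.tq y := h.exists_homeo.choose_spec y

theorem t2Space : T2Space (Tot act ρ S B N) := h.homeo.isEmbedding.t2Space

theorem nice : Nice (Tot act ρ S B N) := Nice.of_homeomorph h.homeo

theorem isThomOf_pull {t : Coch E.tot.X} (ht : IsThom E.Z E.ch t) :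
    IsThomOf act ρ S B N (pull h.homeo t) := by
  refine ht.pull h.homeo.continuous (fun z hz => ?_) ?_
  · obtain ⟨y, rfl⟩ := h.isQuotientMap_tp.surjective z
    rw [mem_preimage, h.homeo_tp] at hz
    exact ⟨_, map_zero ι, (h.tp_eq (y' := ⟨(y.1.1, 0), (E₀.F _).zero_mem⟩)).2 (congrArg E.tot.π
      (Subtype.ext (Prod.ext rfl ((VB.mk_mem_Z.1 hz).trans (map_zero (M _)).symm))))⟩
  · rintro r φ ⟨x, hx, ℓ, h1, h2, h3⟩
    obtain ⟨x, rfl⟩ := p.surj x hx
    obtain ⟨ι', hι⟩ := ι.exists_leftInverse_of_injective (LinearMap.ker_eq_bot.2 h.emb.injective)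
    have h4 : ∀ v, ι' (ℓ v) ∈ E₀.F x ∧ ι (ι' (ℓ v)) = ℓ v := fun v => by
      obtain ⟨w, h5, h6⟩ := (h.map x).ge (h3 v).1.2
      rw [← show ι w = ℓ v from h6, show ι' (ι w) = w from LinearMap.congr_fun hι w]
      exact ⟨h5, rfl⟩
    have := VB.ch_mk (E := E) (t := x) (ℓ := M x ∘ₗ ι' ∘ₗ ℓ)
      ((injective_iff_map_eq_zero _).2 fun v hv => h1 v ((h4 v).2 ▸ (h.ker _ _ (h4 v).1).1 hv))
      (le_antisymm (by rintro _ ⟨v, rfl⟩; exact h.hom.mem _ _ (h4 v).1) fun w hw => by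
        obtain ⟨w, h5, rfl⟩ := h.surj _ w hw
        obtain ⟨_, ⟨v, rfl⟩, n, h6, h7⟩ := Submodule.mem_sup.1 (h2.ge (h.mem h5))
        refine ⟨v, (sub_eq_zero.1 ((map_sub (M x) _ _).symm.trans
          ((h.ker _ _ (sub_mem h5 (h4 v).1)).2 ?_))).symm⟩
        rwa [map_sub, (h4 v).2, ← h7, add_sub_cancel_left])
    convert this using 1
    refine funext fun v => Eq.trans ?_ (h.homeo_tp ⟨(x, ι' (ℓ v)), (h4 v).1⟩)
    obtain ⟨_, h5⟩ := h3 v
    exact congrArg h.homeo (h5.trans (congrArg (Quot.mk _) (Subtype.ext (Prod.ext rfl (h4 v).2.symm))))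

theorem isThom_pull {t : Coch (Tot act ρ S B N)} (ht : IsThomOf act ρ S B N t) :
    IsThom E.Z E.ch (pull h.homeo.symm t) := by
  refine IsThom.pull ht h.homeo.symm.continuous (fun z hz => ?_) fun r φ hφ => ?_
  · obtain ⟨x, h0, h1⟩ := hz
    obtain ⟨y, h2, h3⟩ := h.exists_pt x
    rw [h.homeo.symm_apply_eq.1 h1, show Quot.mk _ x = h.tp y from
      congrArg (Quot.mk _) (Subtype.ext (Prod.ext h2 h3).symm), h.homeo_tp]
    exact VB.mk_mem_Z.2 ((h.ker _ _ y.2).2 (by rw [h3, h0]; exact zero_mem _))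
  · obtain ⟨x, ℓ, h1, h2, rfl⟩ := hφ.elim
    obtain ⟨R, h3, h4⟩ := h.hom.exists_sect h.surj
    have h5 : ∀ v, ℓ v ∈ E.F x := fun v => h2.le ⟨v, rfl⟩
    have h6 : ∀ v, R x (ℓ v) ∈ E₀.F x := fun v => h3.mem _ _ (h5 v)
    refine ⟨p.i x, p.mem x, ι ∘ₗ R x ∘ₗ ℓ, fun v hv => (injective_iff_map_eq_zero _).1 h1 v
      ((h4 _ _ (h5 v)).symm.trans ((h.ker _ _ (h6 v)).2 hv)), le_antisymm
        (sup_le (by rintro _ ⟨v, rfl⟩; exact h.mem (h6 v)) (h.le x)) fun q hq => ?_,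
      fun v => ⟨⟨p.mem x, h.mem (h6 v)⟩, h.homeo.symm_apply_eq.2 (Eq.trans ?_
        (h.homeo_tp ⟨(x, R x (ℓ v)), h6 v⟩).symm)⟩⟩
    · obtain ⟨w, h7, rfl⟩ := (h.map x).ge hq
      obtain ⟨v, hv⟩ := h2.ge (h.hom.mem _ _ h7)
      refine Submodule.mem_sup.2 ⟨_, ⟨v, rfl⟩, ι (w - R x (ℓ v)),
        (h.ker _ _ (sub_mem h7 (h6 v))).1 (by rw [map_sub, h4 _ _ (h5 v), hv, sub_self]), ?_⟩
      rw [map_sub]
      exact add_sub_cancel _ _
    · exact congrArg E.tot.π (Subtype.ext (Prod.ext rfl (h4 _ _ (h5 v)).symm))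

theorem isThomOf_iff {t : Coch (Tot act ρ S B N)} :
    IsThomOf act ρ S B N t ↔ IsThom E.Z E.ch (pull h.homeo.symm t) :=
  ⟨h.isThom_pull, fun ht => by
    have := h.isThomOf_pull ht
    rwa [pull_pull, h.homeo.symm_comp_self, pull_id] at this⟩

theorem exists_isThomOf : ∃ t, IsThomOf act ρ S B N t := ⟨_, h.isThomOf_pull E.isThom⟩

variable {σ : W → P} {s : Y.T → E.W} (hs : E.IsSec s)
  (e : ∀ t, ∃ w ∈ E₀.F t, ι w = σ (p.i t) ∧ M t w = s t)
include hs e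

theorem homeo_sec : h.homeo ∘ sec act ρ S B N σ = hs.mor.map ∘ p.e := funext fun z => by
  obtain ⟨t, h0, h6⟩ := p.exists_out z
  obtain ⟨w, h1, h2, h3⟩ := e t
  have h4 : σ z.out.1 ∈ B z.out.1 := by rw [← h0, ← h2]; exact h.mem h1
  have h5 : sec act ρ S B N σ z = h.tp ⟨(t, w), h1⟩ :=
    congrArg (Quot.mk _) (Subtype.ext (Prod.ext h0.symm ((if_pos h4).trans (h0 ▸ h2.symm))))
  rw [comp_apply, h5, h.homeo_tp, comp_apply, ← h6, p.map', Mor.map_π]
  exact congrArg E.tot.π (Subtype.ext (Prod.ext rfl h3))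

theorem pull_sec (t : Coch (Tot act ρ S B N)) :
    pull (sec act ρ S B N σ) t = pull p.e (pull hs.mor.map (pull h.homeo.symm t)) := by
  rw [pull_pull p.e, ← h.homeo_sec hs e, pull_pull, ← comp_assoc, h.homeo.symm_comp_self, id_comp]

theorem continuous_sec : Continuous (sec act ρ S B N σ) :=
  h.homeo.comp_continuous_iff.1 (h.homeo_sec hs e ▸ hs.mor.map.continuous.comp p.e.continuous)

omit e h in
theorem preimage_zeros : p.e ⁻¹' (Y.π '' {t | s t = 0}) = p.mk' '' {t | s t = 0} := by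
  rw [show Y.π = p.e ∘ p.mk' from (funext p.map').symm, image_comp,
    p.isHomeomorph_e.injective.preimage_image]

/-- the pull-back of a Thom cocycle by a section is the Euler cocycle of the model -/
theorem cohom_sec {t : Coch (Tot act ρ S B N)} (ht : IsThomOf act ρ S B N t) :
    Cohom (p.mk' '' {t | s t = 0}) (pull (sec act ρ S B N σ) t) (pull p.e hs.eul) := by
  rw [h.pull_sec hs e, ← preimage_zeros hs]
  exact (hs.cohom_pull (h.isThom_pull ht)).pull p.e.continuous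

omit e h in
theorem isCo_eul : IsCo (p.mk' '' {t | s t = 0}) E.r (pull p.e hs.eul) :=
  ⟨cocycle_pull p.e.continuous hs.isCo.cocycle, hs.isCo.deg.pull _, by
    rw [← preimage_zeros hs]
    exact (supp_pull p.e.continuous _).trans (preimage_mono hs.isCo.supp)⟩

theorem isCo_sec {t : Coch (Tot act ρ S B N)} (ht : IsThomOf act ρ S B N t) :
    IsCo (p.mk' '' {t | s t = 0}) E.r (pull (sec act ρ S B N σ) t) :=
  ⟨(h.cohom_sec hs e ht).cocycle (isCo_eul hs).cocycle,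
    h.pull_sec hs e t ▸ ((E.isOVB.thom_deg (h.isThom_pull ht)).pull _).pull _,
    (h.cohom_sec hs e ht).supp_subset (isCo_eul hs).supp⟩

theorem pull_sec_th : pull (sec act ρ S B N σ) (pull h.homeo E.th) = pull p.e hs.eul := by
  rw [pull_pull, h.homeo_sec hs e, ← pull_pull]
  rfl

omit hs e

theorem exists_zero (t : Y.T) : ∃ w ∈ E₀.F t, ι w = (0 : W → P) (p.i t) ∧ M t w = 0 :=
  ⟨0, zero_mem _, map_zero _, map_zero _⟩

theorem eulerC_cocycle : supp (δ (eulerC act ρ S B N)) = ∅ :=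
  (h.isCo_sec E.isSec_zero h.exists_zero (Classical.epsilon_spec h.exists_isThomOf)).cocycle

theorem eulerC_deg : IsDeg (2 * E.r) (eulerC act ρ S B N) :=
  (h.isCo_sec E.isSec_zero h.exists_zero (Classical.epsilon_spec h.exists_isThomOf)).deg

/-- **The Euler cocycle of the statement represents the Euler class of the model** -/
theorem hcls_eulerC : hcls (eulerC act ρ S B N) = H.map p.e E.eu.1 :=
  ((h.cohom_sec E.isSec_zero h.exists_zero (Classical.epsilon_spec h.exists_isThomOf)).hcls_eq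
    (isCo_eul E.isSec_zero).cocycle).trans (by
      rw [← E.isSec_zero.hcls_eul, H.map_hcls _ E.isSec_zero.isCo.cocycle])

end IsMod

/-- `ρ` restricts to a continuous linear representation of the unit group on `P₀`. -/
structure IsRepOn (ρ : A → P → P) (P₀ : Submodule ℂ P) : Prop where
  mem : ∀ a, IsUnit a → ∀ q ∈ P₀, ρ a q ∈ P₀
  add : ∀ a, IsUnit a → ∀ q ∈ P₀, ∀ q' ∈ P₀, ρ a (q + q') = ρ a q + ρ a q'
  smul : ∀ a, IsUnit a → ∀ (z : ℂ), ∀ q ∈ P₀, ρ a (z • q) = z • ρ a q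
  one : ∀ q ∈ P₀, ρ 1 q = q
  mul : ∀ a b, IsUnit a → IsUnit b → ∀ q ∈ P₀, ρ (a * b) q = ρ a (ρ b q)
  cont : ∀ q ∈ P₀, Continuous fun g : Aˣ => ρ g q

/-- `B` is a closed invariant family of subspaces of dimension `r` of `P₀`. -/
structure IsFam (act : A → W → W) (ρ : A → P → P) (S : Set W) (P₀ : Submodule ℂ P)
    (B : W → Submodule ℂ P) (r : ℕ) : Prop where
  le : ∀ x ∈ S, B x ≤ P₀
  closed : IsClosed {z : S × P | z.2 ∈ B z.1}
  rank : ∀ x ∈ S, Module.finrank ℂ (B x) = r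
  inv : ∀ x ∈ S, ∀ a, IsUnit a → ∀ q ∈ B x, ρ a q ∈ B (act a x)

variable (p : Pres Y act S) {ρ : A → P → P} {B N : W → Submodule ℂ P}

/-- the family of subspaces as a subbundle -/
@[reducible] def IsFam.vb {P₀ : Submodule ℂ P} {r : ℕ} (h : IsFam act ρ S P₀ B r) (p : Pres Y act S)
    (E : VB Y) {ι : E.W →ₗ[ℂ] P} (hι : IsEmbedding ι) (hr : LinearMap.range ι = P₀)
    (he : ∀ (g : Y.G) w, ι (g • w) = ρ (p.u g) (ι w)) : VB Y :=
  E.sub (fun t => (B (p.i t)).comap ι) r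
    (h.closed.preimage (f := fun x : Y.T × E.W => ((⟨p.i x.1, p.mem _⟩ : S), ι x.2))
      (((p.emb.continuous.comp continuous_fst).subtype_mk _).prodMk
        (hι.continuous.comp continuous_snd)))
    (fun t => by
      rw [← finrank_map_of_inj (f := ι) fun w _ => (map_eq_zero_iff ι hι.injective).1,
        Submodule.map_comap_eq_of_le (hr ▸ h.le _ (p.mem t)), h.rank _ (p.mem t)])
    fun g t w hw => by
      rw [Submodule.mem_comap, he, p.eqv]
      exact h.inv _ (p.mem t) _ (p.unit g) _ hw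

theorem exists_rep [IsTopologicalAddGroup P] [ContinuousSMul ℂ P] [T2Space P] {P₀ : Submodule ℂ P}
    [FiniteDimensional ℂ P₀] (hρ : IsRepOn ρ P₀) (θ : Y.G →* Aˣ) (hθ : Continuous θ) :
    ∃ (E : VB Y) (ι : E.W →ₗ[ℂ] P), IsEmbedding ι ∧ LinearMap.range ι = P₀ ∧
      (∀ t, E.F t = ⊤) ∧ ∀ (g : Y.G) w, ι (g • w) = ρ (θ g) (ι w) := by
  let e : (Fin (Module.finrank ℂ P₀) → ℂ) ≃L[ℂ] P₀ := ContinuousLinearEquiv.ofFinrankEq (by simp)
  let a : Aˣ → P₀ →ₗ[ℂ] P₀ := fun g => ⟨⟨fun q => ⟨ρ g q, hρ.mem _ g.isUnit _ q.2⟩, fun q q' =>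
    Subtype.ext (hρ.add _ g.isUnit _ q.2 _ q'.2)⟩, fun z q => Subtype.ext (hρ.smul _ g.isUnit z _ q.2)⟩
  let b : Y.G → (Fin (Module.finrank ℂ P₀) → ℂ) →L[ℂ] Fin (Module.finrank ℂ P₀) → ℂ := fun g =>
    LinearMap.toContinuousLinearMap (e.symm.toLinearMap ∘ₗ a (θ g) ∘ₗ e.toLinearMap)
  have hb : Continuous b := continuous_clm_apply.2 fun w => e.symm.continuous.comp
    (((hρ.cont _ (e w).2).comp hθ).subtype_mk _)
  refine ⟨VB.ofLin _ (fun g => b g) (fun w => e.symm_apply_eq.2 (Subtype.ext ?_))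
    (fun g h w => congrArg e.symm (Subtype.ext ?_)) ((hb.comp continuous_fst).clm_apply continuous_snd)
    (fun _ => ⊤) _ isClosed_univ (fun _ => finrank_top ℂ _) fun _ _ _ _ => trivial,
    P₀.subtype ∘ₗ e.toLinearMap, IsEmbedding.subtypeVal.comp e.toHomeomorph.isEmbedding, ?_,
    fun _ => rfl, fun g w => congrArg Subtype.val (e.apply_symm_apply (a (θ g) (e w)))⟩
  · show ρ (θ 1) _ = _
    rw [map_one]
    exact hρ.one _ (e w).2
  · show ρ (θ (g * h)) _ = ρ (θ g) (e (e.symm _))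
    rw [map_mul, e.apply_symm_apply]
    exact hρ.mul _ _ (θ g).isUnit (θ h).isUnit _ (e w).2
  · exact (LinearMap.range_comp_of_range_eq_top _ e.toLinearEquiv.range).trans P₀.range_subtype

/-- **Existence of models** inside a given representation -/
theorem exists_isMod_of_rep {P₀ : Submodule ℂ P} {r r' : ℕ} (hB : IsFam act ρ S P₀ B r)
    (hN : IsFam act ρ S P₀ N r') (hle : ∀ x ∈ S, N x ≤ B x) (E : VB Y) {ι : E.W →ₗ[ℂ] P}
    (hι : IsEmbedding ι) (hr : LinearMap.range ι = P₀)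
    (he : ∀ (g : Y.G) w, ι (g • w) = ρ (p.u g) (ι w)) :
    ∃ (E' : VB Y) (M : Y.T → E.W →ₗ[ℂ] E'.W), E'.r = r - r' ∧
      IsMod p ρ B N (hB.vb p E hι hr he) E' ι M ∧
      Exact (hN.vb p E hι hr he) (hB.vb p E hι hr he) E' (fun _ => LinearMap.id) M := by
  obtain ⟨E', M, h1, h2⟩ := Hom.exists_coker (E' := hN.vb p E hι hr he) (E := hB.vb p E hι hr he)
    (A := fun _ => LinearMap.id) (Hom.of_continuous (fun t w hw => hle _ (p.mem t) hw)
      continuous_snd fun _ _ _ _ => rfl) fun _ _ _ h => h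
  exact ⟨E', M, h1, ⟨hι, fun t => Submodule.map_comap_eq_of_le (hr ▸ hB.le _ (p.mem t)),
    fun g t w _ => by rw [he, sub_self]; exact zero_mem _, fun t => hle _ (p.mem t), h2.hB, h2.surj,
    fun t w hw => (h2.ex t w hw).trans ⟨by rintro ⟨w, h, rfl⟩; exact h, fun h => ⟨w, h, rfl⟩⟩⟩, h2⟩

/-- **Existence of models** -/
theorem exists_isMod [IsTopologicalAddGroup P] [ContinuousSMul ℂ P] [T2Space P]
    {P₀ : Submodule ℂ P} [FiniteDimensional ℂ P₀] (hρ : IsRepOn ρ P₀) {r r' : ℕ}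
    (hB : IsFam act ρ S P₀ B r) (hN : IsFam act ρ S P₀ N r') (hle : ∀ x ∈ S, N x ≤ B x)
    (θ : Y.G →* Aˣ) (hθ : Continuous θ) (hu : ∀ g, p.u g = θ g) :
    ∃ (E₀ E : VB Y) (ι : E₀.W →ₗ[ℂ] P) (M : Y.T → E₀.W →ₗ[ℂ] E.W), E₀.r = r ∧ E.r = r - r' ∧
      IsMod p ρ B N E₀ E ι M ∧ LinearMap.range ι = P₀ ∧
      ∀ (g : Y.G) w, ι (g • w) = ρ (p.u g) (ι w) := by
  obtain ⟨E, ι, h1, h2, -, h3⟩ := exists_rep (Y := Y) hρ θ hθ
  have h4 : ∀ (g : Y.G) w, ι (g • w) = ρ (p.u g) (ι w) := fun g w => hu g ▸ h3 g w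
  obtain ⟨E', M, h5, h6, -⟩ := exists_isMod_of_rep p hB hN hle E h1 h2 h4
  exact ⟨hB.vb p E h1 h2 h4, E', ι, M, rfl, h5, h6, h2, h4⟩

/-- an equivariant map with values in `B` induces a section of the model -/
theorem IsMod.exists_sec {p : Pres Y act S} {E₀ E : VB Y} {ι : E₀.W →ₗ[ℂ] P}
    {M : Y.T → E₀.W →ₗ[ℂ] E.W} (h : IsMod p ρ B N E₀ E ι M) {σ : W → P} (hc : ContinuousOn σ S)
    (hB : ∀ x ∈ S, σ x ∈ B x)
    (he : ∀ x ∈ S, ∀ a, IsUnit a → σ (act a x) - ρ a (σ x) ∈ N (act a x)) :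
    ∃ s : Y.T → E.W, E.IsSec s ∧ (∀ t, ∃ w ∈ E₀.F t, ι w = σ (p.i t) ∧ M t w = s t) ∧
      ∀ t, s t = 0 ↔ σ (p.i t) ∈ N (p.i t) := by
  choose w h1 h2 using fun t => (h.map t).ge (hB _ (p.mem t))
  have h3 : Continuous w := h.emb.continuous_iff.2
    ((hc.comp_continuous p.emb.continuous p.mem).congr fun t => (h2 t).symm)
  refine ⟨fun t => M t (w t), ⟨fun t => h.hom.mem _ _ (h1 t), h.hom.continuous continuous_id h3 h1,
    fun g t => ?_⟩, fun t => ⟨w t, h1 t, h2 t, rfl⟩, fun t => h2 t ▸ h.ker t _ (h1 t)⟩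
  refine Eq.trans (sub_eq_zero.1 ((map_sub _ _ _).symm.trans
    ((h.ker _ _ (sub_mem (h1 _) (E₀.inv g t _ (h1 t)))).2 ?_))) (h.hom.eqv g t _ (h1 t))
  rw [map_sub, ← sub_sub_sub_cancel_right _ _ (ρ (p.u g) (ι (w t)))]
  refine sub_mem ?_ (h.eqv g t _ (h1 t))
  rw [h2, h2, p.eqv]
  exact he _ (p.mem t) _ (p.unit g)

end tot

end Vale.Agent.P269.Ch
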