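import Vale.Agent.P269.Ch.Proj

set_option linter.all false

/-!
# Splittings, frames, the Chern polynomial, the splitting principle, the Whitney formula
-/

namespace Vale.Agent.P269.Ch

open Set Function Topology Filter Vale.Agent.P291Z Vale.Agent.P269.Orb Polynomial

variable {Y'' Y' Y : Sp}

section retr

variable {m : Mor Y' Y} {E' : VB Y'} {E : VB Y} {A : Y'.T → E'.W →ₗ[ℂ] E.W}

/-- a bundle map extended to the ambient representation -/
noncomputable def Hom.clm (_ : Hom m E' E A) (t : Y'.T) : E'.W →L[ℂ] E.W :=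
  LinearMap.toContinuousLinearMap (A t ∘ₗ (E'.P t : E'.W →ₗ[ℂ] E'.W))

theorem Hom.clm_apply (h : Hom m E' E A) (t : Y'.T) (w : E'.W) : h.clm t w = A t (E'.P t w) := rfl

theorem Hom.clm_eq (h : Hom m E' E A) {t : Y'.T} {w : E'.W} (hw : w ∈ E'.F t) :
    h.clm t w = A t w := by rw [h.clm_apply, E'.P_eq hw]

theorem Hom.continuous_clm (h : Hom m E' E A) : Continuous h.clm :=
  continuous_clm_apply.2 fun w => h.continuous continuous_id
    (E'.continuous_P continuous_id continuous_const) fun t => E'.P_mem t w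

theorem Hom.clm_smul (h : Hom m E' E A) (g : Y'.G) (t : Y'.T) (w : E'.W) :
    h.clm (g • t) (g • w) = m.ρ g • h.clm t w := by
  rw [h.clm_apply, E'.P_smul, h.eqv g t _ (E'.P_mem t w), h.clm_apply]

theorem exists_leftInv {Z V W : Type} [TopologicalSpace Z] [NormedAddCommGroup V] [NormedSpace ℂ V]
    [FiniteDimensional ℂ V] [NormedAddCommGroup W] [NormedSpace ℂ W] [FiniteDimensional ℂ W]
    {B : Z → V →L[ℂ] W} {z : Z} (hB : ∀ᶠ y in 𝓝 z, ContinuousAt B y) (hi : Injective (B z)) :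
    ∃ R : Z → W →L[ℂ] V, ∀ᶠ y in 𝓝 z, ContinuousAt R y ∧ ∀ v, R y (B y v) = v := by
  haveI := FiniteDimensional.complete ℂ V
  obtain ⟨L, hL⟩ := (B z : V →ₗ[ℂ] W).exists_leftInverse_of_injective (LinearMap.ker_eq_bot.2 hi)
  let L' := LinearMap.toContinuousLinearMap L
  have hc : ∀ y, ContinuousAt B y → ContinuousAt (fun y => L' ∘L B y) y := fun y hy =>
    continuousAt_const.clm_comp hy
  have h1 : ∀ᶠ y in 𝓝 z, IsUnit (L' ∘L B y) := (hc z hB.self_of_nhds).eventually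
    (Units.isOpen.mem_nhds (show IsUnit (L' ∘L B z) by
      rw [show L' ∘L B z = 1 from ContinuousLinearMap.ext (LinearMap.congr_fun hL)]
      exact isUnit_one))
  refine ⟨fun y => Ring.inverse (L' ∘L B y) ∘L L', ?_⟩
  filter_upwards [hB, h1] with y hy hu
  refine ⟨ContinuousAt.clm_comp ?_ continuousAt_const, fun v =>
    DFunLike.congr_fun (Ring.inverse_mul_cancel _ hu) v⟩
  obtain ⟨u, hu⟩ := hu
  exact ContinuousAt.comp (f := fun y => L' ∘L B y)
    (hu ▸ NormedRing.inverse_continuousAt u) (hc y hy)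

variable {S E : VB Y} {A : Y.T → S.W →ₗ[ℂ] E.W}

/-- an injective bundle map has a retraction -/
theorem Hom.exists_retr (h : Hom (Mor.id Y) S E A) (inj : ∀ t w, w ∈ S.F t → A t w = 0 → w = 0) :
    ∃ R : Y.T → E.W →L[ℂ] S.W, Continuous R ∧ (∀ (g : Y.G) t w, R (g • t) (g • w) = g • R t w) ∧
      (∀ t w, R t w ∈ S.F t) ∧ ∀ t w, w ∈ S.F t → R t (A t w) = w := by
  haveI := smulCommClass_real (G := Y.G) (W := HomW Y.G E.W S.W)
  obtain ⟨R, h1, h2, h3⟩ := exists_section Y.free (M := HomW Y.G E.W S.W)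
    (C := fun t => {Φ | (∀ w, Φ.val w ∈ S.F t) ∧ ∀ w, w ∈ S.F t → Φ.val (A t w) = w})
    (fun t Φ hΦ Ψ hΨ a b _ _ hab => ⟨fun w => add_mem ((S.F t).smul_of_tower_mem a (hΦ.1 w))
      ((S.F t).smul_of_tower_mem b (hΨ.1 w)), fun w hw => by
        show a • Φ.val _ + b • Ψ.val _ = w
        rw [hΦ.2 w hw, hΨ.2 w hw, ← add_smul, hab, one_smul]⟩)
    (fun g t Φ hΦ => ⟨fun w => S.inv g _ _ (hΦ.1 _), fun w hw => by
      obtain ⟨w, rfl⟩ := MulAction.surjective g w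
      have h1 := S.smul_mem_iff.1 hw
      rw [HomW.smul_val, h.eqv g t w h1]
      erw [inv_smul_smul, hΦ.2 w h1]⟩)
    fun t => by
      obtain ⟨N, ψ, q, h1, h2, h3, h4⟩ := S.exists_frame t
      have hψ : ∀ᶠ y in 𝓝 t, ContinuousAt ψ y := mem_of_superset (h1.mem_nhds h2) fun y hy =>
        h3.continuousAt (h1.mem_nhds hy)
      obtain ⟨R, hR⟩ := exists_leftInv (B := fun y => h.clm y ∘L ψ y) (z := t)
        (hψ.mono fun y hy => h.continuous_clm.continuousAt.clm_comp hy)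
        ((injective_iff_map_eq_zero _).2 fun a ha => by
          have h5 := ((h4 t h2).2 _).2 ⟨a, rfl⟩
          rw [← (h4 t h2).1 a, inj t _ h5 ((h.clm_eq h5).symm.trans ha), map_zero])
      refine ⟨_, inter_mem (h1.mem_nhds h2) (hψ.and hR), fun y => ψ y ∘L R y, fun y hy =>
        (hy.2.1.clm_comp hy.2.2.1).continuousWithinAt, fun y hy =>
          ⟨fun w => ((h4 y hy.1).2 _).2 ⟨_, rfl⟩, fun w hw => ?_⟩⟩
      obtain ⟨a, rfl⟩ := ((h4 y hy.1).2 _).1 hw
      rw [← h.clm_eq hw]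
      exact congrArg (ψ y) (hy.2.2.2 a)
  refine ⟨R, h1, fun g t w => ?_, fun t => (h3 t).1, fun t => (h3 t).2⟩
  show (R (g • t)).val (g • w) = _
  rw [h2, HomW.smul_val, inv_smul_smul]
  rfl

theorem finrank_inf_ker {W W' : Type} [AddCommGroup W] [Module ℂ W] [AddCommGroup W']
    [Module ℂ W'] [FiniteDimensional ℂ W] (S : Submodule ℂ W) (f : W →ₗ[ℂ] W') :
    Module.finrank ℂ (S.map f) + Module.finrank ℂ (S ⊓ LinearMap.ker f : Submodule ℂ W) =
      Module.finrank ℂ S := by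
  have h1 := LinearMap.finrank_range_add_finrank_ker (f.domRestrict S)
  rwa [LinearMap.range_domRestrict, LinearMap.ker_domRestrict,
    ← Submodule.finrank_map_subtype_eq, Submodule.map_comap_subtype] at h1

/-- an injective bundle map has a complement -/
theorem Hom.exists_compl (h : Hom (Mor.id Y) S E A) (inj : ∀ t w, w ∈ S.F t → A t w = 0 → w = 0)
    {k : ℕ} (hk : E.r = S.r + k) : ∃ (R : Y.T → E.W →ₗ[ℂ] S.W) (hR : Hom (Mor.id Y) E S R)
      (hr : ∀ t, Module.finrank ℂ (E.F t ⊓ LinearMap.ker (R t) : Submodule ℂ E.W) = k),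
      (∀ t w, w ∈ S.F t → R t (A t w) = w) ∧
        Exact (hR.ker k hr) E S (fun _ => LinearMap.id) R := by
  obtain ⟨R, h1, h2, h3, h4⟩ := h.exists_retr inj
  have hR : Hom (Mor.id Y) E S fun t => (R t : E.W →ₗ[ℂ] S.W) :=
    Hom.of_continuous (fun t w _ => h3 t w) ((h1.comp continuous_fst).clm_apply continuous_snd)
      fun g t w _ => h2 g t w
  have hs : ∀ t w, w ∈ S.F t → ∃ w' ∈ E.F t, R t w' = w := fun t w hw =>
    ⟨_, h.mem t w hw, h4 t w hw⟩
  refine ⟨_, hR, fun t => ?_, h4, Hom.of_continuous (fun _ _ h => h.1) continuous_snd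
    fun _ _ _ _ => rfl, hR, fun _ _ _ h => h, hs, fun t w hw =>
      ⟨fun h => ⟨w, ⟨hw, h⟩, rfl⟩, by rintro ⟨w, h, rfl⟩; exact h.2⟩⟩
  have := finrank_inf_ker (E.F t) (R t : E.W →ₗ[ℂ] S.W)
  rw [show (E.F t).map (R t : E.W →ₗ[ℂ] S.W) = S.F t from le_antisymm
    (by rintro _ ⟨w, -, rfl⟩; exact h3 t w) (hs t), S.rank, E.rank] at this
  omega

/-- the inverse of an isomorphism -/
theorem Iso.exists_symm (h : Iso (Mor.id Y) S E A) : ∃ R : Y.T → E.W →ₗ[ℂ] S.W,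
    Iso (Mor.id Y) E S R ∧ (∀ t w, w ∈ S.F t → R t (A t w) = w) ∧
      ∀ t w, w ∈ E.F t → A t (R t w) = w := by
  obtain ⟨R, h1, h2, h3, h4⟩ := h.exists_retr h.inj
  refine ⟨fun t => R t, ⟨Hom.of_continuous (fun t w _ => h3 t w)
    ((h1.comp continuous_fst).clm_apply continuous_snd) fun g t w _ => h2 g t w,
    fun t w hw e => ?_, fun t w hw => ⟨_, h.mem t w hw, h4 t w hw⟩⟩, h4, fun t w hw => ?_⟩
  · obtain ⟨v, hv, rfl⟩ := h.surj t w hw
    rw [show v = 0 from (h4 t v hv).symm.trans e, map_zero]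
  · obtain ⟨v, hv, rfl⟩ := h.surj t w hw
    exact congrArg (A t) (h4 t v hv)

/-- the image of an injective bundle map is closed -/
theorem Hom.isClosed_map (h : Hom (Mor.id Y) S E A) (inj : ∀ t w, w ∈ S.F t → A t w = 0 → w = 0) :
    IsClosed {x : Y.T × E.W | x.2 ∈ (S.F x.1).map (A x.1)} := by
  obtain ⟨R, h1, -, h3, h4⟩ := h.exists_retr inj
  convert isClosed_eq (h.continuous continuous_fst
    ((h1.comp continuous_fst).clm_apply continuous_snd) fun x => h3 x.1 x.2) continuous_snd using 1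
  ext x
  exact ⟨by rintro ⟨w, hw, e⟩; rw [mem_setOf_eq, comp_apply, ← e, h4 _ w hw],
    fun e => ⟨_, h3 x.1 x.2, e⟩⟩

end retr

/-- A frame of eigenvectors: `E` is the direct sum of the line bundles of the characters `χ i`. -/
structure Fr {ι : Type} (E : VB Y) (χ : ι → Y.G →ₜ* ℂˣ) (v : ι → Y.T → E.W) : Prop where
  cont : ∀ i, Continuous (v i)
  eqv : ∀ i (g : Y.G) t, g • v i t = (χ i g : ℂ) • v i (g • t)
  li : ∀ t, LinearIndependent ℂ fun i => v i t
  span : ∀ t, Submodule.span ℂ (range fun i => v i t) = E.F t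

theorem eu_chars_fin {n : ℕ} (χ : Fin n → Y.G →ₜ* ℂˣ) : (chars χ).eu = ∏ i, c1 (χ i) := by
  induction n with
  | zero => exact (chars χ).eu_eq_one rfl
  | succ n ih =>
    rw [Fin.prod_univ_succ, ← ih]
    refine Exact.eu (A := fun _ => LinearMap.single ℂ (fun _ => ℂ) 0)
      (B := fun _ => LinearMap.funLeft ℂ ℂ Fin.succ) (Exact.of_rank
        (Hom.of_continuous (fun _ _ _ => trivial) ((continuous_single 0).comp continuous_snd)
          fun g t w _ => funext fun i => Fin.cases rfl (fun _ => (mul_zero _).symm) i)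
        (Hom.of_continuous (fun _ _ _ => trivial)
          (continuous_pi fun i => (continuous_apply i.succ).comp continuous_snd) fun _ _ _ _ => rfl)
        (fun _ _ _ h => congrFun h 0) (fun _ w _ => ⟨Fin.cons 0 w, trivial, rfl⟩)
        (fun _ _ _ => rfl) ?_)
    show Fintype.card (Fin (n + 1)) = 1 + Fintype.card (Fin n)
    simp [add_comm]

theorem iso_chars_equiv {ι κ : Type} [Fintype ι] [Fintype κ] (e : κ ≃ ι) (χ : ι → Y.G →ₜ* ℂˣ) :
    Iso (Mor.id Y) (chars χ) (chars fun k => χ (e k)) fun _ => LinearMap.funLeft ℂ ℂ e :=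
  ⟨Hom.of_continuous (fun _ _ _ => trivial)
    (continuous_pi fun i => (continuous_apply (e i)).comp continuous_snd) fun _ _ _ _ => rfl,
    fun _ (w : ι → ℂ) _ h => funext fun i =>
      (congrArg w (e.apply_symm_apply i)).symm.trans (congrFun h (e.symm i)),
    fun _ w _ => ⟨w ∘ e.symm, trivial, funext fun k => congrArg w (e.symm_apply_apply k)⟩⟩

theorem eu_chars {ι : Type} [Fintype ι] (χ : ι → Y.G →ₜ* ℂˣ) : (chars χ).eu = ∏ i, c1 (χ i) := by
  rw [(iso_chars_equiv (Fintype.equivFin ι).symm χ).eu', eu_chars_fin]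
  exact Equiv.prod_comp _ fun i => c1 (χ i)

namespace Fr

variable {ι : Type} {E : VB Y} {χ : ι → Y.G →ₜ* ℂˣ} {v : ι → Y.T → E.W}

theorem mem (h : Fr E χ v) (i : ι) (t : Y.T) : v i t ∈ E.F t :=
  (h.span t).le (Submodule.subset_span ⟨i, rfl⟩)

theorem tw (h : Fr E χ v) (m : Mor Y' Y) (ψ : Y'.G →ₜ* ℂˣ) :
    Fr (E.tw m ψ) (fun i => m.chr (χ i) * ψ) fun i t => v i (m.f t) :=
  ⟨fun i => (h.cont i).comp m.cf, fun i g t =>
    show (ψ g : ℂ) • m.ρ g • v i (m.f t) = ((χ i (m.ρ g) * ψ g : ℂˣ) : ℂ) • v i (m.f (g • t)) by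
      rw [h.eqv, m.eqv, smul_smul, Units.val_mul, mul_comm], fun _ => h.li _, fun _ => h.span _⟩

theorem pb (h : Fr E χ v) (m : Mor Y' Y) :
    Fr (E.pb m) (fun i => m.chr (χ i)) fun i t => v i (m.f t) :=
  ⟨fun i => (h.cont i).comp m.cf, fun i g t =>
    show m.ρ g • v i (m.f t) = (χ i (m.ρ g) : ℂ) • v i (m.f (g • t)) by rw [h.eqv, m.eqv],
    fun _ => h.li _, fun _ => h.span _⟩

variable [Fintype ι]

theorem card (h : Fr E χ v) (t : Y.T) : Fintype.card ι = E.r := by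
  rw [← E.rank t, ← h.span, finrank_span_eq_card (h.li t)]

theorem iso (h : Fr E χ v) :
    Iso (Mor.id Y) (chars χ) E fun t => Fintype.linearCombination ℂ fun i => v i t :=
  ⟨Hom.of_continuous (fun t a _ => (h.span t).le (by
      rw [← Fintype.range_linearCombination]; exact ⟨a, rfl⟩))
    (continuous_finset_sum _ fun i _ => ((continuous_apply i).comp continuous_snd).smul
      ((h.cont i).comp continuous_fst)) fun g t (a : ι → ℂ) _ =>
      show ∑ i, ((χ i g : ℂ) * a i) • v i (g • t) = g • ∑ i, a i • v i t by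
        rw [Finset.smul_sum]
        exact Finset.sum_congr rfl fun i _ => by rw [smul_comm g, h.eqv, smul_smul, mul_comm],
    fun t a _ e => funext (Fintype.linearIndependent_iff.1 (h.li t) a e), fun t w hw => by
      obtain ⟨a, ha⟩ := (Submodule.mem_span_range_iff_exists_fun ℂ).1 ((h.span t).ge hw)
      exact ⟨a, trivial, ha⟩⟩

theorem eu (h : Fr E χ v) : E.eu = ∏ i, c1 (χ i) := by rw [← h.iso.eu', eu_chars]

theorem of_span (cont : ∀ i, Continuous (v i))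
    (eqv : ∀ i (g : Y.G) t, g • v i t = (χ i g : ℂ) • v i (g • t))
    (span : ∀ t, Submodule.span ℂ (range fun i => v i t) = E.F t) (hr : Fintype.card ι = E.r) :
    Fr E χ v :=
  ⟨cont, eqv, fun t => linearIndependent_iff_card_eq_finrank_span.2 (by
    rw [Set.finrank, span, E.rank, hr]), span⟩

theorem of_li (cont : ∀ i, Continuous (v i))
    (eqv : ∀ i (g : Y.G) t, g • v i t = (χ i g : ℂ) • v i (g • t))
    (li : ∀ t, LinearIndependent ℂ fun i => v i t) (mem : ∀ i t, v i t ∈ E.F t)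
    (hr : Fintype.card ι = E.r) : Fr E χ v :=
  ⟨cont, eqv, li, fun t => Submodule.eq_of_le_of_finrank_eq
    (Submodule.span_le.2 (by rintro _ ⟨i, rfl⟩; exact mem i t))
    (by rw [finrank_span_eq_card (li t), E.rank, hr])⟩

end Fr

theorem fr_chars {ι : Type} [Fintype ι] [DecidableEq ι] (χ : ι → Y.G →ₜ* ℂˣ) :
    Fr (chars χ) χ fun i _ => (Pi.single i 1 : ι → ℂ) :=
  Fr.of_li (fun _ => continuous_const) (fun i g t => funext fun j =>
    show (χ j g : ℂ) * (Pi.single i 1 : ι → ℂ) j = χ i g * (Pi.single i 1 : ι → ℂ) j by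
      by_cases h : j = i
      · rw [h]
      · rw [Pi.single_eq_of_ne h, mul_zero, mul_zero])
    (fun _ => Pi.linearIndependent_single_one ι ℂ) (fun _ _ => trivial) rfl

theorem fr_char (χ : Y.G →ₜ* ℂˣ) : Fr (char χ) (fun _ : Unit => χ) fun _ _ => (1 : ℂ) :=
  Fr.of_li (fun _ => continuous_const) (fun _ _ _ => rfl)
    (fun _ => linearIndependent_unique_iff.2 (one_ne_zero : (1 : ℂ) ≠ 0)) (fun _ _ => trivial) rfl

theorem VB.xi_pt_ne {E : VB Y} (t : Y.T) (h : 2 ≤ E.r) : (trivB pt (E.F t)).xi ≠ 0 := fun h0 =>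
  (isBasis_pt (E.F t)).li.ne_zero ⟨1, by rw [E.rank]; exact h⟩ (by simp [h0])

theorem coeff_eq_one {E : VB Y} (hr : 2 ≤ E.r) {χ : Y.G →ₜ* ℂˣ} {a b : Hev Y.X}
    (ha : a ∈ Hev.deg Y.X 0) (hb : b ∈ Hev.deg Y.X 1)
    (h3 : Hev.map E.pp.map a * E.xi + Hev.map E.pp.map b = c1 (E.pp.chr χ * E.o1)) : a = 1 := by
  have h0 : H.IsDeg 0 (a - 1).1 := sub_mem ha Hev.one_deg
  refine sub_eq_zero.1 (Subtype.ext (H.eq_zero_of_points h0 fun x => ?_))
  obtain ⟨t, rfl⟩ := Y.surj x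
  let m := (E.iso_at t).pmor (E.iso_at t).inj
  have h5 := congrArg (Hev.map m.map) h3
  have h6 : m.chr (E.pp.chr χ * E.o1) = (trivB pt (E.F t)).o1 :=
    ContinuousMonoidHom.ext fun g => show χ 1 * g.2 = g.2 by rw [map_one, one_mul]
  obtain ⟨z, hz⟩ := H.map_const (X := Unit) (Y.π t) a.1
  have h7 : Hev.map (Y.at t).map b = 0 :=
    Subtype.ext (H.map_const_eq_zero (X := Unit) (k := 2 * 1) (Y.π t) (by norm_num) hb)
  have h8 : Hev.map (Y.at t).map a = z • 1 := Subtype.ext hz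
  rw [map_c1, h6, map_add, map_mul, (E.iso_at t).pmor_xi, Hev.map_map, Hev.map_map,
    (E.iso_at t).pmor_pp, ← Hev.map_map, ← Hev.map_map, h7, h8, map_zero, add_zero,
    map_smul, map_one, smul_mul_assoc, one_mul] at h5
  have h9 : (z - 1) • (trivB pt (E.F t)).xi = 0 := by
    rw [sub_smul, one_smul]
    exact sub_eq_zero.2 h5
  rw [AddSubgroupClass.coe_sub, map_sub, hz, sub_eq_zero.1 ((smul_eq_zero.1 h9).resolve_right
    (VB.xi_pt_ne t hr)), one_smul, OneMemClass.coe_one, map_one, sub_self]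

/-- **Additivity of the first Chern class** -/
theorem c1_mul (χ ψ : Y.G →ₜ* ℂˣ) : c1 (χ * ψ) = c1 χ + c1 ψ := by
  let E := (char ψ⁻¹).sum (char 1)
  obtain ⟨P, h1, h2, h3⟩ := exists_of_lh E.lh_bijective.2 E.xi_deg (c1_deg (E.pp.chr χ * E.o1))
  have h0 : P.degree ≤ 1 := (degree_le_iff_coeff_zero _ _).2 fun j hj =>
    coeff_eq_zero_of_degree_lt (h1.trans_le (by
      have : 1 < j := by exact_mod_cast hj
      exact_mod_cast (this : 1 + 1 ≤ j)))
  rw [eq_X_add_C_of_degree_le_one h0, map_add, map_mul, evP_C, evP_C, evP_X] at h3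
  have h4 : P.coeff 1 = 1 := coeff_eq_one (E := E) le_rfl (by simpa using h2 1)
    (by simpa using h2 0) h3
  rw [h4, map_one, one_mul] at h3
  have key : ∀ (s : Mor Y E.PS), (∀ t, VB.PT.t (s.f t) = t) →
      c1 (s.chr E.o1) + P.coeff 0 = c1 (s.chr (E.pp.chr χ * E.o1)) := fun s hs => by
    have h5 := congrArg (Hev.map s.map) h3
    rwa [map_c1, map_add, VB.xi, map_c1, Hev.map_map, ← Mor.map_comp,
      Mor.map_ext (m' := Mor.id Y) fun t => congrArg Y.π (hs t), Hev.map_mor_id] at h5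
  have k1 := key ⟨(MonoidHom.id _).prod 1, fun t => VB.PT.mk t ((0 : ℂ), (1 : ℂ)) ⟨trivial, trivial⟩
    fun h => one_ne_zero (α := ℂ) (congrArg Prod.snd h), continuous_id.prodMk continuous_const,
    VB.PT.continuous_mk continuous_id continuous_const _ _, fun g t => VB.PT.ext rfl
      (Prod.ext (show (0 : ℂ) = 1 * (_ * 0) by simp) (show (1 : ℂ) = 1 * (1 * 1) by simp))⟩
    fun _ => rfl
  have k2 := key ⟨(MonoidHom.id _).prod ψ.toMonoidHom, fun t => VB.PT.mk t ((1 : ℂ), (0 : ℂ))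
    ⟨trivial, trivial⟩ fun h => one_ne_zero (α := ℂ) (congrArg Prod.fst h),
    continuous_id.prodMk ψ.continuous,
    VB.PT.continuous_mk continuous_id continuous_const _ _, fun g t => VB.PT.ext rfl
      (Prod.ext (show (1 : ℂ) = ψ g * (((ψ g)⁻¹ : ℂˣ) * 1) by simp)
        (show (0 : ℂ) = ψ g * (1 * 0) by simp))⟩ fun _ => rfl
  have k3 : c1 1 + P.coeff 0 = c1 (χ * 1) := k1
  have k4 : c1 ψ + P.coeff 0 = c1 (χ * ψ) := k2
  rw [c1_one, zero_add, show χ * 1 = χ from mul_one χ] at k3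
  rw [← k4, k3, add_comm]

theorem c1_inv (χ : Y.G →ₜ* ℂˣ) : c1 χ⁻¹ = -c1 χ := by
  rw [eq_neg_iff_add_eq_zero, ← c1_mul, inv_mul_cancel, c1_one]

theorem c1_div (χ ψ : Y.G →ₜ* ℂˣ) : c1 (χ / ψ) = c1 χ - c1 ψ := by
  rw [div_eq_mul_inv, c1_mul, c1_inv, sub_eq_add_neg]

/-- the first Chern class as a homomorphism -/
noncomputable def c1Hom (Y : Sp) : (Y.G →ₜ* ℂˣ) →* Multiplicative (Hev Y.X) where
  toFun χ := Multiplicative.ofAdd (c1 χ)
  map_one' := congrArg Multiplicative.ofAdd c1_one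
  map_mul' χ ψ := congrArg Multiplicative.ofAdd (c1_mul χ ψ)

theorem c1_prod {ι : Type*} (s : Finset ι) (χ : ι → Y.G →ₜ* ℂˣ) :
    c1 (∏ i ∈ s, χ i) = ∑ i ∈ s, c1 (χ i) :=
  congrArg Multiplicative.toAdd ((map_prod (c1Hom Y) χ s).trans (ofAdd_sum _ _).symm)

theorem c1_zpow (χ : Y.G →ₜ* ℂˣ) (n : ℤ) : c1 (χ ^ n) = n • c1 χ :=
  congrArg Multiplicative.toAdd (map_zpow (c1Hom Y) χ n)

theorem c1_pow (χ : Y.G →ₜ* ℂˣ) (n : ℕ) : c1 (χ ^ n) = n • c1 χ :=
  congrArg Multiplicative.toAdd (map_pow (c1Hom Y) χ n)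

namespace VB

variable (E : VB Y)

/-- The Chern polynomial `X ^ r + c₁ X ^ (r - 1) + ⋯ + c_r`. -/
noncomputable def chern : (Hev Y.X)[X] := (exists_mon_of_lh E.lh_bijective.2 E.xi_deg).choose

theorem chern_mon : Mon E.r E.chern := (exists_mon_of_lh E.lh_bijective.2 E.xi_deg).choose_spec.1

theorem chern_deg (j : ℕ) : E.chern.coeff j ∈ Hev.deg Y.X (E.r - j) :=
  (exists_mon_of_lh E.lh_bijective.2 E.xi_deg).choose_spec.2.1 j

theorem evP_chern : evP E.pp.map E.xi E.chern = 0 :=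
  (exists_mon_of_lh E.lh_bijective.2 E.xi_deg).choose_spec.2.2

theorem chern_eq {P : (Hev Y.X)[X]} (h : ∀ _ : Y.T, Mon E.r P) (h0 : evP E.pp.map E.xi P = 0) :
    E.chern = P := by
  rcases isEmpty_or_nonempty Y.T with _ | ⟨⟨t⟩⟩
  · exact Subsingleton.elim _ _
  · exact E.chern_mon.eq_of_lh E.lh_bijective.1 (h t) (E.evP_chern.trans h0.symm)

theorem isSec_taut : (E.tw E.pp E.o1).IsSec PT.w := ⟨PT.mem, PT.continuous_w, fun _ _ => rfl⟩

theorem eu_taut : (E.tw E.pp E.o1).eu = 0 := E.isSec_taut.eu_eq_zero PT.ne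

/-- the inclusion of the tautological line bundle -/
theorem hom_taut : Hom (Mor.id E.PS) (char E.o1⁻¹) (E.pb E.pp)
    fun x => LinearMap.toSpanSingleton ℂ E.W (PT.w x) :=
  Hom.of_continuous (fun x z _ => (E.F _).smul_mem z (PT.mem x))
    (show Continuous fun x : E.PT × ℂ => x.2 • PT.w x.1 by fun_prop)
    fun g x (z : ℂ) _ => show (((g.2⁻¹ : ℂˣ) : ℂ) * z) • (g.2 : ℂ) • g.1 • PT.w x = g.1 • z • PT.w x by
      rw [smul_smul, mul_right_comm, Units.inv_mul, one_mul, smul_comm g.1 z]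

theorem taut_inj (x : E.PS.T) (z : ℂ) (h : LinearMap.toSpanSingleton ℂ E.W (PT.w x) z = 0) :
    z = 0 := (smul_eq_zero.1 h).resolve_right (PT.ne x)

end VB

/-- **Naturality of the Chern polynomial** -/
theorem Iso.chern {m : Mor Y' Y} {E' : VB Y'} {E : VB Y} {A : Y'.T → E'.W →ₗ[ℂ] E.W}
    (h : Iso m E' E A) : E'.chern = E.chern.map (Hev.map m.map : Hev Y.X →+* Hev Y'.X) :=
  E'.chern_eq (fun t => h.rank t ▸ E.chern_mon.map _) (by
    rw [evP_map, ← h.pmor_pp h.inj, ← h.pmor_xi h.inj, ← map_evP, E.evP_chern, map_zero])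

theorem Iso.chern' {E' E : VB Y} {A : Y.T → E'.W →ₗ[ℂ] E.W} (h : Iso (Mor.id Y) E' E A) :
    E'.chern = E.chern := h.chern.trans (Polynomial.ext fun n => by
  rw [coeff_map]; exact Hev.map_mor_id _)

theorem VB.chern_pb (E : VB Y) (m : Mor Y' Y) :
    (E.pb m).chern = E.chern.map (Hev.map m.map : Hev Y.X →+* Hev Y'.X) := (iso_pb E m).chern

theorem Fr.chern {ι : Type} [Fintype ι] {E : VB Y} {χ : ι → Y.G →ₜ* ℂˣ} {v : ι → Y.T → E.W}
    (h : Fr E χ v) : E.chern = ∏ i, (X + C (c1 (χ i))) :=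
  E.chern_eq (fun t => h.card t ▸ mon_prod_X_add_C _) (by
    rw [← E.eu_taut, (h.tw E.pp E.o1).eu, map_prod]
    exact Finset.prod_congr rfl fun i _ => by
      rw [map_add, evP_X, evP_C, c1_mul, map_c1, add_comm]; rfl)

theorem exists_fr_aux (r : ℕ) : ∀ (Y : Sp) (E : VB Y), E.r = r → ∃ (Y' : Sp) (m : Mor Y' Y),
    Injective (H.map m.map) ∧ ∃ (χ : Fin r → Y'.G →ₜ* ℂˣ) (v : Fin r → Y'.T → E.W),
      Fr (E.pb m) χ v := by
  induction r with
  | zero => exact fun Y E h => ⟨Y, Mor.id Y, fun a b e => by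
      rwa [H.map_id (Mor.map_id Y), H.map_id (Mor.map_id Y)] at e, Fin.elim0, Fin.elim0,
      Fr.of_li (fun i => i.elim0) (fun i => i.elim0) (fun _ => linearIndependent_empty_type)
        (fun i => i.elim0) h.symm⟩
  | succ r ih =>
    intro Y E h
    obtain ⟨R, hR, hr, h1, -⟩ := E.hom_taut.exists_compl (fun x z _ => E.taut_inj x z) (k := r)
      (h.trans (add_comm _ _))
    obtain ⟨Y', m, hm, χ, v, hv⟩ := ih _ (hR.ker r hr) rfl
    let v' : Fin (r + 1) → Y'.T → E.W := Fin.cons (fun t => VB.PT.w (m.f t)) v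
    have h2 : ∀ (g : Y'.G) t, (m.ρ g).1 • VB.PT.w (m.f t) =
        (((m.ρ g).2⁻¹ : ℂˣ) : ℂ) • VB.PT.w (m.f (g • t)) := fun g t => by
      rw [m.eqv]
      exact ((smul_smul _ _ _).trans (by rw [Units.inv_mul, one_smul])).symm
    have h3 : ∀ t, LinearIndependent ℂ fun i => v' i t := fun t => by
      rw [show (fun i => v' i t) = Fin.cons (VB.PT.w (m.f t)) fun i => v i t from
        funext (Fin.cases rfl fun _ => rfl)]
      refine (hv.li t).finCons fun h0 => ?_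
      have h2 := h1 (m.f t) (1 : ℂ) trivial
      erw [LinearMap.toSpanSingleton_apply_one, ((hv.span t).le h0).2] at h2
      exact zero_ne_one (α := ℂ) h2
    refine ⟨Y', E.pp.comp m, ?_, Fin.cons (m.chr E.o1⁻¹) χ, v', Fr.of_li
      (fun i => Fin.cases (VB.PT.continuous_w.comp m.cf) hv.cont i)
      (fun i => Fin.cases h2 hv.eqv i) h3
      (fun i => Fin.cases (fun t => VB.PT.mem _) (fun i t => (hv.mem i t).1) i)
      ((Fintype.card_fin _).trans h.symm)⟩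
    rw [Mor.map_comp]
    exact fun a b e => E.pp_injective (by omega) (hm (by rwa [H.map_map, H.map_map]))

/-- **The splitting principle** -/
theorem VB.exists_fr (E : VB Y) : ∃ (Y' : Sp) (m : Mor Y' Y), Injective (H.map m.map) ∧
    ∃ (χ : Fin E.r → Y'.G →ₜ* ℂˣ) (v : Fin E.r → Y'.T → E.W), Fr (E.pb m) χ v :=
  exists_fr_aux _ Y E rfl

theorem Mor.injective_comp {m : Mor Y' Y} {m' : Mor Y'' Y'} (h : Injective (H.map m.map))
    (h' : Injective (H.map m'.map)) : Injective (H.map (m.comp m').map) := by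
  rw [Mor.map_comp]
  exact fun a b e => h (h' (by rwa [H.map_map, H.map_map]))

/-- **The splitting principle** for two bundles -/
theorem exists_fr₂ (E₁ E₂ : VB Y) : ∃ (Y' : Sp) (m : Mor Y' Y), Injective (H.map m.map) ∧
    (∃ (χ : Fin E₁.r → Y'.G →ₜ* ℂˣ) (v : Fin E₁.r → Y'.T → E₁.W), Fr (E₁.pb m) χ v) ∧
    ∃ (χ : Fin E₂.r → Y'.G →ₜ* ℂˣ) (v : Fin E₂.r → Y'.T → E₂.W), Fr (E₂.pb m) χ v := by
  obtain ⟨Y', m, hm, χ, v, hv⟩ := E₁.exists_fr
  obtain ⟨Y'', m', hm', χ', v', hv'⟩ := (E₂.pb m).exists_fr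
  exact ⟨Y'', m.comp m', Mor.injective_comp hm hm', ⟨_, _, hv.pb m'⟩, χ', v', hv'⟩

/-- **The splitting principle** for finitely many bundles -/
theorem exists_fr_list (Es : List (VB Y)) : ∃ (Y' : Sp) (m : Mor Y' Y), Injective (H.map m.map) ∧
    ∀ E ∈ Es, ∃ (χ : Fin E.r → Y'.G →ₜ* ℂˣ) (v : Fin E.r → Y'.T → E.W), Fr (E.pb m) χ v := by
  induction Es with
  | nil => exact ⟨Y, Mor.id Y, fun a b e => by
      rwa [H.map_id (Mor.map_id Y), H.map_id (Mor.map_id Y)] at e, fun _ h => nomatch h⟩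
  | cons E Es ih =>
    obtain ⟨Y', m, hm, h⟩ := ih
    obtain ⟨Y'', m', hm', χ', v', hv'⟩ := (E.pb m).exists_fr
    refine ⟨Y'', m.comp m', Mor.injective_comp hm hm', List.forall_mem_cons.2
      ⟨⟨χ', v', hv'⟩, fun E' hE' => ?_⟩⟩
    obtain ⟨χ, v, hv⟩ := h E' hE'
    exact ⟨_, _, hv.pb m'⟩

theorem exists_fr_fam {ι : Type} [Finite ι] (E : ι → VB Y) : ∃ (Y' : Sp) (m : Mor Y' Y),
    Injective (H.map m.map) ∧ ∀ i, ∃ (χ : Fin (E i).r → Y'.G →ₜ* ℂˣ)
      (v : Fin (E i).r → Y'.T → (E i).W), Fr ((E i).pb m) χ v := by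
  haveI := Fintype.ofFinite ι
  obtain ⟨Y', m, hm, h⟩ := exists_fr_list (Finset.univ.toList.map E)
  exact ⟨Y', m, hm, fun i => h _ (List.mem_map_of_mem (by simp))⟩

/-- **The Euler class of a twisted bundle** -/
theorem VB.eu_tw (E : VB Y) (m : Mor Y' Y) (χ : Y'.G →ₜ* ℂˣ) :
    (E.tw m χ).eu = evP m.map (c1 χ) E.chern := by
  obtain ⟨Y'', m', hm', ψ, v, hv⟩ := (E.pb m).exists_fr
  refine Hev.map_injective hm' ?_
  have h1 : Fr ((E.tw m χ).pb m') (fun i => (Mor.id Y'').chr (ψ i) * m'.chr χ) v :=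
    hv.tw (Mor.id Y'') (m'.chr χ)
  rw [← VB.eu_pb, h1.eu, map_evP, evP_eq, ← Mor.map_comp, ← VB.chern_pb]
  erw [hv.chern]
  rw [eval_prod]
  exact Finset.prod_congr rfl fun i _ => by
    rw [eval_add, eval_X, eval_C, c1_mul, map_c1, add_comm]; rfl

theorem iso_tw_one (E : VB Y) (m : Mor Y' Y) : Iso m (E.tw m 1) E fun _ => LinearMap.id :=
  ⟨Hom.of_continuous (fun _ _ h => h) continuous_snd fun _ _ _ _ => one_smul ℂ _, fun _ _ _ h => h,
    fun _ w h => ⟨w, h, rfl⟩⟩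

/-- the top Chern class is the Euler class -/
theorem VB.chern_coeff_zero (E : VB Y) : E.chern.coeff 0 = E.eu := by
  rw [← (iso_tw_one E (Mor.id Y)).eu', E.eu_tw, c1_one, evP_eq, ← coeff_zero_eq_eval_zero, coeff_map]
  exact (Hev.map_mor_id _).symm

theorem VB.chern_line (L : VB Y) (h : L.r = 1) : L.chern = X + C L.eu := by
  rw [← L.chern_coeff_zero]
  exact (h ▸ L.chern_mon).eq_X_add_C

theorem VB.chern_zero (E : VB Y) (h : E.r = 0) : E.chern = 1 := (h ▸ E.chern_mon).eq_one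

theorem Hom.tw {E' E : VB Y} {A : Y.T → E'.W →ₗ[ℂ] E.W} (h : Hom (Mor.id Y) E' E A) (m : Mor Y' Y)
    (χ : Y'.G →ₜ* ℂˣ) : Hom (Mor.id Y') (E'.tw m χ) (E.tw m χ) fun t => A (m.f t) :=
  ⟨fun _ _ hw => h.mem _ _ hw, h.continuous (m.cf.comp (by fun_prop))
    (continuous_snd.comp continuous_subtype_val) fun x => x.2, fun g t (w : E'.W) hw =>
      show A (m.f (g • t)) ((χ g : ℂ) • m.ρ g • w) = (χ g : ℂ) • m.ρ g • A (m.f t) w by
        rw [map_smul, m.eqv, h.eqv _ _ _ hw]; rfl⟩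

theorem Hom.pb' {E' E : VB Y} {A : Y.T → E'.W →ₗ[ℂ] E.W} (h : Hom (Mor.id Y) E' E A)
    (m : Mor Y' Y) : Hom (Mor.id Y') (E'.pb m) (E.pb m) fun t => A (m.f t) :=
  (h.comp (iso_pb E' m).toHom).pb

theorem Exact.tw {E' E E'' : VB Y} {A : Y.T → E'.W →ₗ[ℂ] E.W} {B : Y.T → E.W →ₗ[ℂ] E''.W}
    (h : Exact E' E E'' A B) (m : Mor Y' Y) (χ : Y'.G →ₜ* ℂˣ) :
    Exact (E'.tw m χ) (E.tw m χ) (E''.tw m χ) (fun t => A (m.f t)) fun t => B (m.f t) :=
  ⟨h.hA.tw m χ, h.hB.tw m χ, fun _ => h.inj _, fun _ => h.surj _, fun _ => h.ex _⟩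

theorem Exact.pb {E' E E'' : VB Y} {A : Y.T → E'.W →ₗ[ℂ] E.W} {B : Y.T → E.W →ₗ[ℂ] E''.W}
    (h : Exact E' E E'' A B) (m : Mor Y' Y) :
    Exact (E'.pb m) (E.pb m) (E''.pb m) (fun t => A (m.f t)) fun t => B (m.f t) :=
  ⟨h.hA.pb' m, h.hB.pb' m, fun _ => h.inj _, fun _ => h.surj _, fun _ => h.ex _⟩

/-- **The Whitney formula** -/
theorem Exact.chern {E' E E'' : VB Y} {A : Y.T → E'.W →ₗ[ℂ] E.W} {B : Y.T → E.W →ₗ[ℂ] E''.W}
    (h : Exact E' E E'' A B) : E.chern = E'.chern * E''.chern :=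
  E.chern_eq (fun t => h.rank t ▸ E'.chern_mon.mul E''.chern_mon) (by
    rw [map_mul, ← E.eu_taut, (h.tw E.pp E.o1).eu, VB.eu_tw, VB.eu_tw]; rfl)

theorem VB.chern_sum (E₁ E₂ : VB Y) : (E₁.sum E₂).chern = E₁.chern * E₂.chern :=
  (exact_sum E₁ E₂).chern

theorem chern_chars {ι : Type} [Fintype ι] (χ : ι → Y.G →ₜ* ℂˣ) :
    (chars χ).chern = ∏ i, (X + C (c1 (χ i))) := by
  classical
  exact (fr_chars χ).chern

theorem chern_char (χ : Y.G →ₜ* ℂˣ) : (char χ).chern = X + C (c1 χ) := (char χ).chern_line rfl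

theorem Mon.comp_X_add_C {R : Type*} [CommRing R] {r : ℕ} {P : R[X]} (h : Mon r P) (c : R) :
    Mon r (P.comp (X + C c)) := by
  refine ⟨?_, by rw [← taylor_apply, natDegree_taylor]; exact h.le⟩
  rcases subsingleton_or_nontrivial R with _ | _
  · exact Subsingleton.elim _ _
  · have h1 : P.natDegree = r := natDegree_eq_of_le_of_coeff_ne_zero h.le (h.coeff ▸ one_ne_zero)
    rw [← taylor_apply, ← h1, coeff_taylor_natDegree]
    exact h.monic

/-- the Chern polynomial of a twisted bundle -/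
theorem VB.chern_tw (E : VB Y) (m : Mor Y' Y) (χ : Y'.G →ₜ* ℂˣ) : (E.tw m χ).chern =
    (E.chern.map (Hev.map m.map : Hev Y.X →+* Hev Y'.X)).comp (X + C (c1 χ)) := by
  refine (E.tw m χ).chern_eq (fun _ => ?_) ?_
  · exact (E.chern_mon.map _).comp_X_add_C _
  · have h1 : ((E.tw m χ).tw (E.tw m χ).pp (E.tw m χ).o1).eu =
        (E.tw (m.comp (E.tw m χ).pp) ((E.tw m χ).o1 * (E.tw m χ).pp.chr χ)).eu :=
      Iso.eu' (A := fun _ => LinearMap.id) ⟨Hom.of_continuous (fun _ _ h => h) continuous_snd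
        fun g _ w _ => (mul_smul _ _ _).symm, fun _ _ _ h => h, fun _ w h => ⟨w, h, rfl⟩⟩
    rw [VB.eu_taut, VB.eu_tw, c1_mul, ← map_c1, Mor.map_comp, ← evP_map] at h1
    rw [h1, evP_eq, evP_eq, map_comp, eval_comp, Polynomial.map_add, map_X, map_C, eval_add, eval_X,
      eval_C]
    rfl

end Vale.Agent.P269.Ch
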