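import Vale.Agent.P269.Ch.Eqv
import Vale.Agent.P269.Orb.Slice
import Vale.Agent.P269.Z.EulVB

set_option linter.all false

/-!
# Presented orbifolds, their morphisms, vector bundles and bundle maps
-/

namespace Vale.Agent.P269.Ch

open Set Function Topology Filter Vale.Agent.P291Z Vale.Agent.P269.Orb

section act

variable {G G' T T' : Type} [Group G] [TopologicalSpace G] [TopologicalSpace T] [MulAction G T]
  [TopologicalSpace T'] [MulAction G T']

theorem LocFree.of_map {f : T' → T} (hf : Continuous f) (he : ∀ (g : G) t, f (g • t) = g • f t)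
    {t : T'} (h : LocFree G (f t)) : LocFree G t := by
  obtain ⟨τ, h1, h2⟩ := h
  refine ⟨τ ∘ f, (hf.continuousAt.eventually h1).mono fun x hx => hx.comp hf.continuousAt, ?_⟩
  filter_upwards [((continuous_id.prodMap hf).tendsto (1, t)).eventually h2] with p hp
  rw [comp_apply, he]
  exact hp

theorem Q.isOpenQuotientMap [ContinuousConstSMul G T] : IsOpenQuotientMap (Q.mk G : T → Q G T) :=
  MulAction.isOpenQuotientMap_quotientMk

omit [TopologicalSpace G] [TopologicalSpace T] in
theorem Q.mk_eq {t t' : T} : Q.mk G t = Q.mk G t' ↔ ∃ g : G, g • t = t' :=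
  ⟨fun h => Quotient.exact h.symm, fun h => (Quotient.sound h).symm⟩

end act

/-- A space `X` presented as the quotient of `T` by a proper, locally free action of `G`. -/
structure Sp where
  /-- the group -/
  G : Type
  /-- the space upstairs -/
  T : Type
  /-- the orbit space -/
  X : Type
  [grp : Group G]
  [tG : TopologicalSpace G]
  [tT : TopologicalSpace T]
  [act : MulAction G T]
  [tX : TopologicalSpace X]
  [tgrp : IsTopologicalGroup G]
  [prop : ProperSMul G T]
  [nice : Nice T]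
  free : ∀ t : T, LocFree G t
  /-- the quotient map -/
  π : T → X
  quo : IsOpenQuotientMap π
  fib : ∀ t t', π t = π t' ↔ ∃ g : G, g • t = t'

attribute [instance] Sp.grp Sp.tG Sp.tT Sp.act Sp.tX Sp.tgrp Sp.prop Sp.nice

namespace Sp

variable (Y : Sp)

theorem π_smul (g : Y.G) (t : Y.T) : Y.π (g • t) = Y.π t := ((Y.fib _ _).2 ⟨g, rfl⟩).symm

theorem cont : Continuous Y.π := Y.quo.continuous

theorem surj : Surjective Y.π := Y.quo.surjective

theorem isQuo : IsQuo Y.G Y.π := ⟨Y.quo, Y.fib⟩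

theorem orb : Orb Y.G Y.T := ⟨inferInstance, inferInstance, inferInstance, Y.free⟩

instance : Nice Y.X := Y.isQuo.nice Y.orb

instance (t : Y.T) : Finite (MulAction.stabilizer Y.G t) := Y.orb.finite_stabilizer t

/-- the presentation given by an orbifold action and a quotient map -/
@[reducible] def of {G T X : Type} [Group G] [TopologicalSpace G] [TopologicalSpace T]
    [MulAction G T] [TopologicalSpace X] {π : T → X} (ho : Orb G T) (hq : IsQuo G π) : Sp where
  G := G
  T := T
  X := X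
  tgrp := ho.grp
  prop := ho.proper
  nice := ho.nice
  free := ho.loc
  π := π
  quo := hq.oq
  fib := hq.eq_iff

/-- a representative -/
noncomputable def out (x : Y.X) : Y.T := surjInv Y.surj x

@[simp] theorem π_out (x : Y.X) : Y.π (Y.out x) = x := surjInv_eq _ x

theorem exists_out (t : Y.T) : ∃ g : Y.G, g • t = Y.out (Y.π t) := (Y.fib _ _).1 (Y.π_out _).symm

theorem continuous_iff {Z : Type*} [TopologicalSpace Z] {φ : Y.X → Z} :
    Continuous φ ↔ Continuous (φ ∘ Y.π) := Y.quo.isQuotientMap.continuous_iff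

/-- a `G`-space over `T` -/
def abv (T' : Type) [TopologicalSpace T'] [MulAction Y.G T'] [ContinuousSMul Y.G T'] [Nice T']
    (f : T' → Y.T) (hf : Continuous f) (he : ∀ (g : Y.G) t, f (g • t) = g • f t) : Sp where
  G := Y.G
  T := T'
  X := Q Y.G T'
  prop := properSMul_of_map hf he
  free t := (Y.free _).of_map hf he
  π := Q.mk Y.G
  quo := Q.isOpenQuotientMap
  fib _ _ := Q.mk_eq

/-- the trivial action of the trivial group -/
@[reducible] def trivAct (X : Type) : MulAction PUnit.{1} X where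
  smul _ x := x
  one_smul _ := rfl
  mul_smul _ _ _ := rfl

/-- a nice space with the trivial group -/
def triv (X : Type) [TopologicalSpace X] [Nice X] : Sp where
  G := PUnit
  T := X
  X := X
  act := trivAct X
  prop := by
    letI := trivAct X
    exact properSMul_iff_continuousSMul_ultrafilter_tendsto_t2.2
      ⟨⟨continuous_snd⟩, fun _ _ _ _ => ⟨1, tendsto_const_nhds⟩⟩
  free t := by
    letI := trivAct X
    exact ⟨fun _ => 1, Eventually.of_forall fun _ => continuousAt_const,
      Eventually.of_forall fun _ => rfl⟩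
  π := id
  quo := IsOpenQuotientMap.id
  fib _ _ := ⟨fun h => ⟨1, h⟩, fun ⟨_, h⟩ => h⟩

end Sp

/-- A morphism of presentations. -/
structure Mor (Y' Y : Sp) where
  /-- the homomorphism of groups -/
  ρ : Y'.G →* Y.G
  /-- the equivariant map -/
  f : Y'.T → Y.T
  cρ : Continuous ρ
  cf : Continuous f
  eqv : ∀ g t, f (g • t) = ρ g • f t

namespace Mor

variable {Y'' Y' Y : Sp}

theorem π_out (m : Mor Y' Y) (t : Y'.T) : Y.π (m.f (Y'.out (Y'.π t))) = Y.π (m.f t) := by
  obtain ⟨g, hg⟩ := Y'.exists_out t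
  rw [← hg, m.eqv, Y.π_smul]

/-- the induced map of orbit spaces -/
noncomputable def map (m : Mor Y' Y) : C(Y'.X, Y.X) :=
  ⟨fun x => Y.π (m.f (Y'.out x)), Y'.continuous_iff.2 (by
    rw [show (fun x => Y.π (m.f (Y'.out x))) ∘ Y'.π = Y.π ∘ m.f from funext m.π_out]
    exact Y.cont.comp m.cf)⟩

@[simp] theorem map_π (m : Mor Y' Y) (t : Y'.T) : m.map (Y'.π t) = Y.π (m.f t) := m.π_out t

theorem map_eq (m : Mor Y' Y) {φ : Y'.X → Y.X} (h : ∀ t, φ (Y'.π t) = Y.π (m.f t)) :
    φ = m.map := funext fun x => by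
  obtain ⟨t, rfl⟩ := Y'.surj x
  rw [h, map_π]

/-- the identity -/
def id (Y : Sp) : Mor Y Y := ⟨MonoidHom.id _, fun t => t, continuous_id, continuous_id, fun _ _ => rfl⟩

/-- composition -/
def comp (m : Mor Y' Y) (m' : Mor Y'' Y') : Mor Y'' Y :=
  ⟨m.ρ.comp m'.ρ, fun t => m.f (m'.f t), m.cρ.comp m'.cρ, m.cf.comp m'.cf, fun g t => by
    rw [m'.eqv, m.eqv]; rfl⟩

theorem map_id (Y : Sp) (x : Y.X) : (id Y).map x = x := Y.π_out x

theorem map_comp (m : Mor Y' Y) (m' : Mor Y'' Y') : (m.comp m').map = m.map.comp m'.map :=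
  ContinuousMap.ext fun x => by
    obtain ⟨t, rfl⟩ := Y''.surj x
    rw [ContinuousMap.comp_apply, map_π, map_π, map_π]
    rfl

theorem map_ext {m m' : Mor Y' Y} (h : ∀ t, Y.π (m.f t) = Y.π (m'.f t)) : m.map = m'.map :=
  ContinuousMap.ext fun x => h _

/-- the pull-back of a character -/
noncomputable def chr (m : Mor Y' Y) (χ : Y.G →ₜ* ℂˣ) : Y'.G →ₜ* ℂˣ := χ.comp ⟨m.ρ, m.cρ⟩

@[simp] theorem chr_apply (m : Mor Y' Y) (χ : Y.G →ₜ* ℂˣ) (g : Y'.G) : m.chr χ g = χ (m.ρ g) := rfl

end Mor

/-! ### representations -/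

section rep

variable (G : Type) (W W' : Type) [Group G] [TopologicalSpace G]
  [NormedAddCommGroup W] [NormedSpace ℂ W] [FiniteDimensional ℂ W] [DistribMulAction G W]
  [SMulCommClass G ℂ W] [NormedAddCommGroup W'] [NormedSpace ℂ W'] [DistribMulAction G W']
  [SMulCommClass G ℂ W']

variable {G} in
/-- the action of an element as a continuous linear map -/
noncomputable def lin (g : G) : W →L[ℂ] W :=
  LinearMap.toContinuousLinearMap (DistribSMul.toLinearMap ℂ W g)

variable {G W} in
omit [TopologicalSpace G] in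
@[simp] theorem lin_apply (g : G) (w : W) : lin W g w = g • w := rfl

theorem continuous_lin [ContinuousSMul G W] : Continuous (lin W : G → W →L[ℂ] W) :=
  continuous_clm_apply.2 fun w => show Continuous fun g : G => g • w by fun_prop

/-- linear maps with the action by conjugation -/
def HomW (_G W W' : Type) [NormedAddCommGroup W] [NormedSpace ℂ W] [NormedAddCommGroup W']
    [NormedSpace ℂ W'] : Type := W →L[ℂ] W'

noncomputable instance : NormedAddCommGroup (HomW G W W') :=
  inferInstanceAs (NormedAddCommGroup (W →L[ℂ] W'))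

noncomputable instance : NormedSpace ℂ (HomW G W W') := inferInstanceAs (NormedSpace ℂ (W →L[ℂ] W'))

instance [FiniteDimensional ℂ W'] : FiniteDimensional ℂ (HomW G W W') :=
  inferInstanceAs (FiniteDimensional ℂ (W →L[ℂ] W'))

variable {G W W'}

/-- the underlying linear map -/
def HomW.val (Φ : HomW G W W') : W →L[ℂ] W' := Φ

variable [FiniteDimensional ℂ W']

noncomputable instance : DistribMulAction G (HomW G W W') where
  smul g Φ := lin W' g ∘L Φ.val ∘L lin W g⁻¹
  one_smul Φ := ContinuousLinearMap.ext fun w => show (1 : G) • Φ.val ((1 : G)⁻¹ • w) = Φ.val w by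
    rw [inv_one, one_smul, one_smul]
  mul_smul g h Φ := ContinuousLinearMap.ext fun w =>
    show (g * h) • Φ.val ((g * h)⁻¹ • w) = g • h • Φ.val (h⁻¹ • g⁻¹ • w) by
      rw [mul_inv_rev, mul_smul, mul_smul]
  smul_zero g := ContinuousLinearMap.ext fun w => smul_zero g
  smul_add g Φ Ψ := ContinuousLinearMap.ext fun w => smul_add g _ _

omit [TopologicalSpace G] in
theorem HomW.smul_val (g : G) (Φ : HomW G W W') (w : W) :
    (g • Φ).val w = g • Φ.val (g⁻¹ • w) := rfl

instance : SMulCommClass G ℂ (HomW G W W') :=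
  ⟨fun g c Φ => ContinuousLinearMap.ext fun w => smul_comm g c (Φ.val (g⁻¹ • w))⟩

instance [IsTopologicalGroup G] [ContinuousSMul G W] [ContinuousSMul G W'] :
    ContinuousSMul G (HomW G W W') :=
  ⟨(((continuous_lin G W').comp continuous_fst).clm_comp (continuous_snd.clm_comp
    ((continuous_lin G W).comp continuous_fst.inv)) :
      Continuous fun p : G × (W →L[ℂ] W') => lin W' p.1 ∘L p.2 ∘L lin W p.1⁻¹)⟩

omit [TopologicalSpace G] [FiniteDimensional ℂ W] in
theorem smulCommClass_real : SMulCommClass G ℝ W :=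
  ⟨fun g c w => by rw [← Complex.coe_smul, ← Complex.coe_smul, smul_comm]⟩

end rep

/-- A vector bundle: an invariant closed family of subspaces of constant dimension of a finite
dimensional representation. -/
structure VB (Y : Sp) where
  /-- the representation -/
  W : Type
  [ng : NormedAddCommGroup W]
  [ns : NormedSpace ℂ W]
  [fd : FiniteDimensional ℂ W]
  [act : DistribMulAction Y.G W]
  [comm : SMulCommClass Y.G ℂ W]
  [cont : ContinuousSMul Y.G W]
  /-- the fibres -/
  F : Y.T → Submodule ℂ W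
  /-- the rank -/
  r : ℕ
  closed : IsClosed {x : Y.T × W | x.2 ∈ F x.1}
  rank : ∀ t, Module.finrank ℂ (F t) = r
  inv : ∀ (g : Y.G) t w, w ∈ F t → g • w ∈ F (g • t)

attribute [instance] VB.ng VB.ns VB.fd VB.act VB.comm VB.cont

namespace VB

variable {Y'' Y' Y : Sp} (E : VB Y)

instance : Nice E.W :=
  haveI := FiniteDimensional.proper ℂ E.W
  ⟨inferInstance, inferInstance, inferInstance⟩

theorem smul_mem_iff {g : Y.G} {t : Y.T} {w : E.W} : g • w ∈ E.F (g • t) ↔ w ∈ E.F t :=
  ⟨fun h => by simpa using E.inv g⁻¹ _ _ h, E.inv g t w⟩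

/-- the total space upstairs -/
def V : SubMulAction Y.G (Y.T × E.W) where
  carrier := {x | x.2 ∈ E.F x.1}
  smul_mem' g x hx := E.inv g x.1 x.2 hx

theorem mem_V {x : Y.T × E.W} : x ∈ E.V ↔ x.2 ∈ E.F x.1 := Iff.rfl

instance : Nice E.V := Nice.of_isLocallyClosed (S := {x : Y.T × E.W | x.2 ∈ E.F x.1})
  E.closed.isLocallyClosed

instance : ContinuousSMul Y.G E.V :=
  ⟨(continuous_fst.smul (continuous_subtype_val.comp continuous_snd)).subtype_mk _⟩

theorem isRep : IsRep Y.G E.W (Module.finrank ℂ E.W) :=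
  ⟨⟨ContinuousLinearEquiv.ofFinrankEq (by simp)⟩, inferInstance, inferInstance⟩

theorem isSubVB : IsSubVB E.V E.r := ⟨E.closed, fun t => ⟨E.F t, E.rank t, fun _ => Iff.rfl⟩⟩

/-- the total space -/
def tot : Sp := Y.abv E.V (fun x => x.1.1) (by fun_prop) fun _ _ => rfl

/-- the projection of the total space -/
def proj : Mor E.tot Y :=
  ⟨MonoidHom.id _, fun x : E.V => x.1.1, continuous_id, by fun_prop, fun _ _ => rfl⟩

/-- equivariant continuous sections -/
structure IsSec (s : Y.T → E.W) : Prop where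
  mem : ∀ t, s t ∈ E.F t
  cont : Continuous s
  eqv : ∀ (g : Y.G) t, s (g • t) = g • s t

theorem isSec_zero : E.IsSec fun _ => 0 :=
  ⟨fun _ => zero_mem _, continuous_const, fun g _ => (smul_zero g).symm⟩

variable {E} in
/-- a section as a morphism -/
def IsSec.mor {s : Y.T → E.W} (h : E.IsSec s) : Mor Y E.tot :=
  ⟨MonoidHom.id _, fun t => (⟨(t, s t), h.mem t⟩ : E.V), continuous_id,
    (continuous_id.prodMk h.cont).subtype_mk _, fun g t => Subtype.ext (Prod.ext rfl (h.eqv g t))⟩

/-- the zero section -/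
def zero : Mor Y E.tot := E.isSec_zero.mor

/-- local frames -/
theorem exists_frame (t₀ : Y.T) : ∃ (N : Set Y.T) (ψ : Y.T → (Fin E.r → ℂ) →L[ℂ] E.W)
    (q : E.W →L[ℂ] (Fin E.r → ℂ)), IsOpen N ∧ t₀ ∈ N ∧ ContinuousOn ψ N ∧
      ∀ t ∈ N, (∀ a, q (ψ t a) = a) ∧ ∀ w, w ∈ E.F t ↔ w ∈ range (ψ t) := by
  obtain ⟨N, ψ, q, h1, h2, h3, h4⟩ := Eul.exists_frame_norm E.closed
    (fun t => ⟨E.F t, E.rank t, fun _ => Iff.rfl⟩) t₀
  refine ⟨N, fun t => LinearMap.toContinuousLinearMap (ψ t), q, h1, h2,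
    continuousOn_clm_apply.2 fun a t ht => ContinuousAt.continuousWithinAt ?_, h4⟩
  exact (h3 (t, a) ht).comp (f := fun t => (t, a)) (by fun_prop)

/-- an equivariant family of projectors onto the fibres -/
theorem exists_proj : ∃ P : Y.T → E.W →L[ℂ] E.W, Continuous P ∧
    (∀ (g : Y.G) t w, P (g • t) (g • w) = g • P t w) ∧ (∀ t w, P t w ∈ E.F t) ∧
    ∀ t w, w ∈ E.F t → P t w = w := by
  haveI := smulCommClass_real (G := Y.G) (W := HomW Y.G E.W E.W)
  obtain ⟨P, h1, h2, h3⟩ := exists_section Y.free (M := HomW Y.G E.W E.W)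
    (C := fun t => {Φ | (∀ w, Φ.val w ∈ E.F t) ∧ ∀ w, w ∈ E.F t → Φ.val w = w})
    (fun t Φ hΦ Ψ hΨ a b _ _ hab => ⟨fun w => add_mem ((E.F t).smul_of_tower_mem a (hΦ.1 w))
      ((E.F t).smul_of_tower_mem b (hΨ.1 w)), fun w hw => by
        show a • Φ.val w + b • Ψ.val w = w
        rw [hΦ.2 w hw, hΨ.2 w hw, ← add_smul, hab, one_smul]⟩)
    (fun g t Φ hΦ => ⟨fun w => E.inv g _ _ (hΦ.1 _), fun w hw => by
      rw [HomW.smul_val, hΦ.2 _ (E.smul_mem_iff.1 (by rwa [smul_inv_smul])), smul_inv_smul]⟩)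
    fun t => by
      obtain ⟨N, ψ, q, h1, h2, h3, h4⟩ := E.exists_frame t
      refine ⟨N, h1.mem_nhds h2, fun t => ψ t ∘L q, h3.clm_comp continuousOn_const, fun x hx =>
        ⟨fun w => ((h4 x hx).2 _).2 ⟨_, rfl⟩, fun w hw => ?_⟩⟩
      obtain ⟨a, rfl⟩ := ((h4 x hx).2 _).1 hw
      exact congrArg (ψ x) ((h4 x hx).1 a)
  refine ⟨P, h1, fun g t w => ?_, fun t => (h3 t).1, fun t => (h3 t).2⟩
  show (P (g • t)).val (g • w) = _
  rw [h2, HomW.smul_val, inv_smul_smul]
  rfl

/-- a chosen equivariant family of projectors onto the fibres -/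
noncomputable def P : Y.T → E.W →L[ℂ] E.W := E.exists_proj.choose

theorem P_cont : Continuous E.P := E.exists_proj.choose_spec.1

theorem P_smul (g : Y.G) (t : Y.T) (w : E.W) : E.P (g • t) (g • w) = g • E.P t w :=
  E.exists_proj.choose_spec.2.1 g t w

theorem P_mem (t : Y.T) (w : E.W) : E.P t w ∈ E.F t := E.exists_proj.choose_spec.2.2.1 t w

theorem P_eq {t : Y.T} {w : E.W} (h : w ∈ E.F t) : E.P t w = w :=
  E.exists_proj.choose_spec.2.2.2 t w h

theorem P_eq_iff {t : Y.T} {w : E.W} : E.P t w = w ↔ w ∈ E.F t :=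
  ⟨fun h => h ▸ E.P_mem t w, E.P_eq⟩

@[fun_prop] theorem continuous_P {Z : Type*} [TopologicalSpace Z] {f : Z → Y.T} {g : Z → E.W}
    (hf : Continuous f) (hg : Continuous g) : Continuous fun z => E.P (f z) (g z) :=
  (E.P_cont.comp hf).clm_apply hg

/-- the action given by linear maps -/
@[reducible] def linAct {G W : Type} [Group G] [AddCommGroup W] [Module ℂ W] (a : G → W →ₗ[ℂ] W)
    (h1 : ∀ w, a 1 w = w) (hm : ∀ g h w, a (g * h) w = a g (a h w)) : DistribMulAction G W where
  smul g w := a g w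
  one_smul := h1
  mul_smul := hm
  smul_zero g := map_zero (a g)
  smul_add g := map_add (a g)

/-- a bundle with the action given by linear maps -/
def ofLin (W : Type) [NormedAddCommGroup W] [NormedSpace ℂ W] [FiniteDimensional ℂ W]
    (a : Y.G → W →ₗ[ℂ] W) (h1 : ∀ w, a 1 w = w) (hm : ∀ g h w, a (g * h) w = a g (a h w))
    (hc : Continuous fun p : Y.G × W => a p.1 p.2) (F : Y.T → Submodule ℂ W) (r : ℕ)
    (closed : IsClosed {x : Y.T × W | x.2 ∈ F x.1}) (rank : ∀ t, Module.finrank ℂ (F t) = r)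
    (inv : ∀ (g : Y.G) t w, w ∈ F t → a g w ∈ F (g • t)) : VB Y :=
  letI := linAct a h1 hm
  { W := W
    comm := ⟨fun g c w => map_smul (a g) c w⟩
    cont := ⟨hc⟩
    F := F
    r := r
    closed := closed
    rank := rank
    inv := inv }

/-- the bundle `m^* E ⊗ ℂ_χ` -/
noncomputable def tw (m : Mor Y' Y) (χ : Y'.G →ₜ* ℂˣ) : VB Y' :=
  ofLin E.W (fun g => (χ g : ℂ) • DistribSMul.toLinearMap ℂ E.W (m.ρ g))
    (fun w => show (χ 1 : ℂ) • m.ρ 1 • w = w by simp)
    (fun g h w => show (χ (g * h) : ℂ) • m.ρ (g * h) • w =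
        (χ g : ℂ) • m.ρ g • (χ h : ℂ) • m.ρ h • w by
      rw [map_mul, map_mul, Units.val_mul, mul_smul, mul_smul, smul_comm (m.ρ g) (χ h : ℂ)])
    (((Units.continuous_val.comp χ.continuous).comp continuous_fst).smul
      ((m.cρ.comp continuous_fst).smul continuous_snd))
    (fun t => E.F (m.f t)) E.r (E.closed.preimage (m.cf.prodMap continuous_id)) (fun _ => E.rank _)
    fun g t w h => (E.F _).smul_mem _ (by rw [m.eqv]; exact E.inv _ _ _ h)

/-- the pull-back -/
noncomputable def pb (m : Mor Y' Y) : VB Y' :=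
  ofLin E.W (fun g => DistribSMul.toLinearMap ℂ E.W (m.ρ g))
    (fun w => show m.ρ 1 • w = w by simp)
    (fun g h w => show m.ρ (g * h) • w = m.ρ g • m.ρ h • w by rw [map_mul, mul_smul])
    ((m.cρ.comp continuous_fst).smul continuous_snd)
    (fun t => E.F (m.f t)) E.r (E.closed.preimage (m.cf.prodMap continuous_id)) (fun _ => E.rank _)
    fun g t w h => by rw [m.eqv]; exact E.inv _ _ _ h

/-- another bundle in the same representation -/
@[reducible] def sub (F : Y.T → Submodule ℂ E.W) (r : ℕ) (closed : IsClosed {x : Y.T × E.W | x.2 ∈ F x.1})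
    (rank : ∀ t, Module.finrank ℂ (F t) = r) (inv : ∀ (g : Y.G) t w, w ∈ F t → g • w ∈ F (g • t)) :
    VB Y := ⟨E.W, F, r, closed, rank, inv⟩

theorem finrank_prod {W W' : Type} [AddCommGroup W] [Module ℂ W] [AddCommGroup W'] [Module ℂ W']
    [FiniteDimensional ℂ W] [FiniteDimensional ℂ W'] (S : Submodule ℂ W) (S' : Submodule ℂ W') :
    Module.finrank ℂ (S.prod S') = Module.finrank ℂ S + Module.finrank ℂ S' := by
  rw [← Module.finrank_prod, ← LinearMap.finrank_range_of_inj (f := S.subtype.prodMap S'.subtype)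
    (S.injective_subtype.prodMap S'.injective_subtype), LinearMap.range_prodMap,
    Submodule.range_subtype, Submodule.range_subtype]

/-- the direct sum -/
@[reducible] noncomputable def sum (E' : VB Y) : VB Y where
  W := E.W × E'.W
  F t := (E.F t).prod (E'.F t)
  r := E.r + E'.r
  closed := (E.closed.preimage (f := fun x : Y.T × E.W × E'.W => (x.1, x.2.1)) (by fun_prop)).inter
    (E'.closed.preimage (f := fun x : Y.T × E.W × E'.W => (x.1, x.2.2)) (by fun_prop))
  rank t := by rw [finrank_prod, E.rank, E'.rank]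
  inv g t w h := ⟨E.inv g _ _ h.1, E'.inv g _ _ h.2⟩

end VB

/-- the sum of the line bundles given by characters -/
noncomputable def chars {Y : Sp} {ι : Type} [Fintype ι] (χ : ι → Y.G →ₜ* ℂˣ) : VB Y :=
  VB.ofLin (ι → ℂ) (fun g => LinearMap.pi fun i => (χ i g : ℂ) • LinearMap.proj i)
    (fun w => funext fun i => by simp) (fun g h w => funext fun i => by simp [mul_assoc])
    (continuous_pi fun i => ((Units.continuous_val.comp (χ i).continuous).comp continuous_fst).mul
      ((continuous_apply i).comp continuous_snd))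
    (fun _ => ⊤) (Fintype.card ι) isClosed_univ (fun _ => by simp) fun _ _ _ _ => trivial

/-- the line bundle given by a character -/
noncomputable def char {Y : Sp} (χ : Y.G →ₜ* ℂˣ) : VB Y :=
  VB.ofLin ℂ (fun g => (χ g : ℂ) • LinearMap.id) (fun w => show (χ 1 : ℂ) * w = w by simp)
    (fun g h w => show (χ (g * h) : ℂ) * w = χ g * (χ h * w) by simp [mul_assoc])
    (((Units.continuous_val.comp χ.continuous).comp continuous_fst).mul continuous_snd)
    (fun _ => ⊤) 1 isClosed_univ (fun _ => by simp) fun _ _ _ _ => trivial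

/-- the trivial bundle -/
noncomputable def trivB (Y : Sp) (W : Type) [NormedAddCommGroup W] [NormedSpace ℂ W]
    [FiniteDimensional ℂ W] : VB Y :=
  VB.ofLin W (fun _ => LinearMap.id) (fun _ => rfl) (fun _ _ _ => rfl) continuous_snd
    (fun _ => ⊤) (Module.finrank ℂ W) isClosed_univ (fun _ => finrank_top ℂ W)
    fun _ _ _ _ => trivial

end Vale.Agent.P269.Ch
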