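import Vale.Agent.P269.Ch.Eu
import Vale.Agent.P291Z.Fl2

set_option linter.all false

/-!
# The first Chern class of a character, projective bundles, the projective bundle theorem
-/

namespace Vale.Agent.P269.Ch

open Set Function Topology Filter Vale.Agent.P291Z Vale.Agent.P269.Orb

variable {Y'' Y' Y : Sp}

/-- the first Chern class of the line bundle of a character -/
noncomputable def c1 (χ : Y.G →ₜ* ℂˣ) : Hev Y.X := (char χ).eu

theorem c1_deg (χ : Y.G →ₜ* ℂˣ) : c1 χ ∈ Hev.deg Y.X 1 := (char χ).eu_deg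

theorem iso_char (m : Mor Y' Y) (χ : Y.G →ₜ* ℂˣ) :
    Iso m (char (m.chr χ)) (char χ) fun _ => LinearMap.id :=
  ⟨Hom.of_continuous (fun _ _ h => h) continuous_snd fun _ _ _ _ => rfl, fun _ _ _ h => h,
    fun _ w h => ⟨w, h, rfl⟩⟩

theorem map_c1 (m : Mor Y' Y) (χ : Y.G →ₜ* ℂˣ) : Hev.map m.map (c1 χ) = c1 (m.chr χ) :=
  (iso_char m χ).eu.symm

theorem c1_one : c1 (1 : Y.G →ₜ* ℂˣ) = 0 :=
  VB.IsSec.eu_eq_zero (E := char 1) (s := fun _ => (1 : ℂ))
    ⟨fun _ => trivial, continuous_const, fun _ _ => (mul_one (1 : ℂ)).symm⟩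
    fun _ => (one_ne_zero : (1 : ℂ) ≠ 0)

namespace VB

variable (E : VB Y)

/-- the complement of the zero section -/
def PT : Type := {x : Y.T × E.W // x.2 ∈ E.F x.1 ∧ x.2 ≠ 0}

instance : TopologicalSpace E.PT := inferInstanceAs (TopologicalSpace {x : Y.T × E.W // _})

instance : Nice E.PT := Nice.of_isLocallyClosed (S := {x : Y.T × E.W | x.2 ∈ E.F x.1 ∧ x.2 ≠ 0})
  (E.closed.isLocallyClosed.inter (isOpen_ne.preimage continuous_snd).isLocallyClosed)

variable {E}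

/-- the base point -/
def PT.t (x : E.PT) : Y.T := x.1.1

/-- the vector -/
def PT.w (x : E.PT) : E.W := x.1.2

theorem PT.mem (x : E.PT) : x.w ∈ E.F x.t := x.2.1

theorem PT.ne (x : E.PT) : x.w ≠ 0 := x.2.2

/-- a point -/
def PT.mk (t : Y.T) (w : E.W) (h : w ∈ E.F t) (h0 : w ≠ 0) : E.PT := ⟨(t, w), h, h0⟩

theorem PT.ext {x y : E.PT} (h : x.t = y.t) (h' : x.w = y.w) : x = y := Subtype.ext (Prod.ext h h')

@[fun_prop] theorem PT.continuous_t : Continuous (PT.t : E.PT → Y.T) :=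
  continuous_fst.comp continuous_subtype_val

@[fun_prop] theorem PT.continuous_w : Continuous (PT.w : E.PT → E.W) :=
  continuous_snd.comp continuous_subtype_val

theorem PT.continuous_mk {Z : Type*} [TopologicalSpace Z] {t : Z → Y.T} {w : Z → E.W}
    (ht : Continuous t) (hw : Continuous w) (h : ∀ z, w z ∈ E.F (t z)) (h0 : ∀ z, w z ≠ 0) :
    Continuous fun z => PT.mk (t z) (w z) (h z) (h0 z) := (ht.prodMk hw).subtype_mk _

noncomputable instance : MulAction (Y.G × ℂˣ) E.PT where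
  smul g x := PT.mk (g.1 • x.t) ((g.2 : ℂ) • g.1 • x.w) ((E.F _).smul_mem _ (E.inv _ _ _ x.mem))
    (smul_ne_zero g.2.ne_zero ((smul_ne_zero_iff_ne g.1).2 x.ne))
  one_smul x := PT.ext (one_smul Y.G x.t) (show ((1 : ℂˣ) : ℂ) • (1 : Y.G) • x.w = x.w by simp)
  mul_smul g h x := PT.ext (mul_smul g.1 h.1 x.t)
    (show ((g.2 * h.2 : ℂˣ) : ℂ) • (g.1 * h.1) • x.w = (g.2 : ℂ) • g.1 • (h.2 : ℂ) • h.1 • x.w by
      rw [Units.val_mul, mul_smul, mul_smul, smul_comm g.1 (h.2 : ℂ)])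

@[simp] theorem PT.smul_t (g : Y.G × ℂˣ) (x : E.PT) : (g • x).t = g.1 • x.t := rfl

@[simp] theorem PT.smul_w (g : Y.G × ℂˣ) (x : E.PT) : (g • x).w = (g.2 : ℂ) • g.1 • x.w := rfl

instance : ContinuousSMul (Y.G × ℂˣ) E.PT :=
  ⟨PT.continuous_mk (by fun_prop) ((Units.continuous_val.comp (by fun_prop)).smul (by fun_prop)) _ _⟩

instance : ProperSMul (Y.G × ℂˣ) E.PT := by
  refine properSMul_iff_continuousSMul_ultrafilter_tendsto_t2.2 ⟨inferInstance, fun 𝒰 x₁ x₂ h => ?_⟩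
  have h1 : Tendsto (fun p : (Y.G × ℂˣ) × E.PT => p.1 • p.2) 𝒰 (𝓝 x₁) :=
    (continuous_fst.tendsto _).comp h
  have h2 : Tendsto (fun p : (Y.G × ℂˣ) × E.PT => p.2) 𝒰 (𝓝 x₂) :=
    (continuous_snd.tendsto _).comp h
  obtain ⟨g, -, hg⟩ := (properSMul_iff_continuousSMul_ultrafilter_tendsto.1 Y.prop).2
    (𝒰.map fun p : (Y.G × ℂˣ) × E.PT => (p.1.1, p.2.t)) x₁.t x₂.t
    (((PT.continuous_t.tendsto _).comp h1).prodMk_nhds ((PT.continuous_t.tendsto _).comp h2))
  have h3 : Tendsto (fun p : (Y.G × ℂˣ) × E.PT => p.1.1 • p.2.w) 𝒰 (𝓝 (g • x₂.w)) :=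
    Tendsto.smul hg ((PT.continuous_w.tendsto _).comp h2)
  have h4 : Tendsto (fun p : (Y.G × ℂˣ) × E.PT => (p.1.2 : ℂ) • p.1.1 • p.2.w) 𝒰 (𝓝 x₁.w) :=
    (PT.continuous_w.tendsto _).comp h1
  obtain ⟨l, hl⟩ := SeparatingDual.exists_ne_zero (R := ℂ) ((smul_ne_zero_iff_ne g).2 x₂.ne)
  have h5 : Tendsto (fun p : (Y.G × ℂˣ) × E.PT => (p.1.2 : ℂ)) 𝒰 (𝓝 (l x₁.w / l (g • x₂.w))) := by
    refine (((l.continuous.tendsto _).comp h4).div ((l.continuous.tendsto _).comp h3) hl).congr' ?_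
    filter_upwards [((l.continuous.tendsto _).comp h3).eventually_ne hl] with p hp
    simp only [Pi.div_apply, comp_apply, map_smul, smul_eq_mul]
    exact mul_div_cancel_right₀ _ hp
  have h6 : l x₁.w / l (g • x₂.w) ≠ 0 := fun h0 => x₁.ne (by
    rw [← tendsto_nhds_unique (h5.smul h3) h4, h0, zero_smul])
  exact ⟨(g, Units.mk0 _ h6), Tendsto.prodMk_nhds hg
    (Units.isEmbedding_val₀.tendsto_nhds_iff.2 h5)⟩

theorem PT.locFree (x : E.PT) : LocFree (Y.G × ℂˣ) x := by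
  classical
  obtain ⟨τ, h1, h2⟩ := Y.free x.t
  obtain ⟨l, hl⟩ := SeparatingDual.exists_ne_zero (R := ℂ)
    ((smul_ne_zero_iff_ne (τ x.t)⁻¹).2 x.ne)
  let c : E.PT → ℂ := fun y => l ((τ y.t)⁻¹ • y.w)
  have hc : ∀ y : E.PT, ContinuousAt τ y.t → ContinuousAt c y := fun y hy =>
    l.continuous.continuousAt.comp
      ((hy.comp PT.continuous_t.continuousAt).inv.smul PT.continuous_w.continuousAt)
  have h3 : ∀ᶠ y in 𝓝 x, c y ≠ 0 := (hc x h1.self_of_nhds).eventually_ne hl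
  have hu : ∀ y, c y ≠ 0 → ((if h : c y = 0 then 1 else Units.mk0 _ h : ℂˣ) : ℂ) = c y :=
    fun y hy => by rw [dif_neg hy]; rfl
  refine ⟨fun y => (τ y.t, if h : c y = 0 then 1 else Units.mk0 _ h), ?_, ?_⟩
  · filter_upwards [PT.continuous_t.continuousAt.eventually h1, h3] with y hy hy'
    refine (hy.comp PT.continuous_t.continuousAt).prodMk
      (Units.isEmbedding_val₀.continuousAt_iff.2 ((hc y hy).congr ?_))
    filter_upwards [(hc y hy).eventually_ne hy'] with z hz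
    exact (hu z hz).symm
  · have h4 : Tendsto (fun p : (Y.G × ℂˣ) × E.PT => (p.1.1, p.2.t)) (𝓝 (1, x)) (𝓝 (1, x.t)) :=
      (show Continuous fun p : (Y.G × ℂˣ) × E.PT => (p.1.1, p.2.t) by fun_prop).tendsto _
    filter_upwards [h4.eventually h2, (continuous_snd.tendsto _).eventually h3] with p hp hp'
    have h5 : c (p.1 • p.2) = p.1.2 * c p.2 := by
      simp only [c, PT.smul_t, PT.smul_w]
      rw [show τ (p.1.1 • p.2.t) = p.1.1 * τ p.2.t from hp, smul_comm, map_smul, smul_smul,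
        mul_inv_rev, inv_mul_cancel_right, smul_eq_mul]
    refine Prod.ext hp (Units.ext ?_)
    rw [hu _ (h5 ▸ mul_ne_zero p.1.2.ne_zero hp'), h5, Prod.snd_mul, Units.val_mul, hu _ hp']

variable (E)

/-- the projective bundle -/
noncomputable def PS : Sp where
  G := Y.G × ℂˣ
  T := E.PT
  X := Q (Y.G × ℂˣ) E.PT
  free := PT.locFree
  π := Q.mk _
  quo := Q.isOpenQuotientMap
  fib _ _ := Q.mk_eq

/-- the projection of the projective bundle -/
noncomputable def pp : Mor E.PS Y :=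
  ⟨MonoidHom.fst _ _, PT.t, continuous_fst, PT.continuous_t, fun _ _ => rfl⟩

/-- the character of `O(1)` -/
noncomputable def o1 : E.PS.G →ₜ* ℂˣ := ContinuousMonoidHom.snd Y.G ℂˣ

/-- the hyperplane class -/
noncomputable def xi : Hev E.PS.X := c1 E.o1

theorem xi_deg : E.xi ∈ Hev.deg E.PS.X 1 := c1_deg _

theorem isPr_pp : IsPr E.pp.map := by
  refine ⟨E.pp.map.continuous, fun K hK => ?_⟩
  haveI := FiniteDimensional.proper ℂ E.W
  obtain ⟨L, hL, hKL⟩ := exists_isCompact_lift Y.quo hK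
  have h1 : IsCompact {x : E.PT | x.t ∈ L ∧ ‖x.w‖ = 1} := by
    refine IsInducing.subtypeVal.isCompact_iff.2 ?_
    convert (hL.prod (isCompact_sphere (0 : E.W) 1)).inter_right E.closed using 1
    ext x
    refine ⟨by rintro ⟨y, hy, rfl⟩; exact ⟨⟨hy.1, mem_sphere_zero_iff_norm.2 hy.2⟩, y.2.1⟩, fun hx => ?_⟩
    have h2 : ‖x.2‖ = 1 := by simpa using hx.1.2
    exact ⟨⟨x, hx.2, fun h0 => by simp [h0] at h2⟩, ⟨hx.1.1, h2⟩, rfl⟩
  refine (h1.image E.PS.cont).of_isClosed_subset (hK.isClosed.preimage E.pp.map.continuous)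
    fun x hx => ?_
  obtain ⟨x, rfl⟩ := E.PS.surj x
  rw [mem_preimage, Mor.map_π] at hx
  obtain ⟨t, ht, e⟩ := hKL hx
  obtain ⟨g, hg⟩ := (Y.fib _ _).1 e.symm
  have h0 : ((‖g • PT.w x‖ : ℂ))⁻¹ ≠ 0 :=
    inv_ne_zero (by exact_mod_cast norm_ne_zero_iff.2 ((smul_ne_zero_iff_ne g).2 x.ne))
  refine ⟨_, ⟨?_, ?_⟩, E.PS.π_smul ((g, Units.mk0 _ h0) : Y.G × ℂˣ) x⟩
  · exact (congrArg (· ∈ L) hg).mpr ht
  show ‖((‖g • PT.w x‖ : ℂ))⁻¹ • g • PT.w x‖ = 1
  rw [norm_smul, norm_inv, Complex.norm_real, norm_norm]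
  exact inv_mul_cancel₀ (norm_ne_zero_iff.2 ((smul_ne_zero_iff_ne g).2 x.ne))

instance [CompactSpace Y.X] : CompactSpace E.PS.X :=
  ⟨by simpa using E.isPr_pp.pre _ isCompact_univ⟩

end VB

section nat

variable {m : Mor Y' Y} {E' : VB Y'} {E : VB Y} {A : Y'.T → E'.W →ₗ[ℂ] E.W}

/-- the morphism of projective bundles induced by an injective bundle map -/
noncomputable def Hom.pmor (h : Hom m E' E A) (inj : ∀ t w, w ∈ E'.F t → A t w = 0 → w = 0) :
    Mor E'.PS E.PS :=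
  ⟨m.ρ.prodMap (MonoidHom.id ℂˣ), fun x : E'.PT => VB.PT.mk (m.f x.t) (A x.t x.w)
    (h.mem _ _ x.mem) fun e => x.ne (inj _ _ x.mem e), m.cρ.prodMap continuous_id,
    VB.PT.continuous_mk (m.cf.comp VB.PT.continuous_t)
      (h.continuous VB.PT.continuous_t VB.PT.continuous_w VB.PT.mem) _ _,
    fun g x => VB.PT.ext (m.eqv _ _) (by
      show A (g.1 • x.t) ((g.2 : ℂ) • g.1 • x.w) = (g.2 : ℂ) • m.ρ g.1 • A x.t x.w
      rw [map_smul, h.eqv _ _ _ x.mem])⟩

theorem Hom.pmor_xi (h : Hom m E' E A) (inj : ∀ t w, w ∈ E'.F t → A t w = 0 → w = 0) :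
    Hev.map (h.pmor inj).map E.xi = E'.xi := map_c1 _ _

theorem Hom.pmor_pp (h : Hom m E' E A) (inj : ∀ t w, w ∈ E'.F t → A t w = 0 → w = 0) :
    E.pp.map.comp (h.pmor inj).map = m.map.comp E'.pp.map := by
  rw [← Mor.map_comp, ← Mor.map_comp]
  exact Mor.map_ext fun _ => rfl

end nat

/-- the point -/
def pt : Sp := Sp.triv Unit

instance : CompactSpace pt.X := inferInstanceAs (CompactSpace Unit)

instance : Subsingleton pt.G := inferInstanceAs (Subsingleton PUnit)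

instance : Unique pt.T := inferInstanceAs (Unique Unit)

section base

open Fl Matrix

theorem ip_single {n : ℕ} (u : Fin (n + 1) → ℂ) : ip (Pi.single 0 1) u = u 0 := by
  simp [ip, Pi.star_single]

/-- **The cohomology of a projective space** -/
theorem isBasis_pt (W : Type) [NormedAddCommGroup W] [NormedSpace ℂ W] [FiniteDimensional ℂ W] :
    IsBasis fun j : Fin (Module.finrank ℂ W) => (trivB pt W).xi.1 ^ (j : ℕ) := by
  set n := Module.finrank ℂ W
  let E := trivB pt W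
  let e : W ≃L[ℂ] (Fin n → ℂ) := ContinuousLinearEquiv.ofFinrankEq (by simp [n])
  let L := char E.o1
  let u : L.V → Fin (n + 1) → ℂ := fun y => Fin.cons y.1.2 (e (VB.PT.w y.1.1))
  have hu : Continuous u := Continuous.finCons (continuous_snd.comp continuous_subtype_val)
    (e.continuous.comp (VB.PT.continuous_w.comp (continuous_fst.comp continuous_subtype_val)))
  have hu0 : ∀ y, u y ≠ 0 := fun y h => VB.PT.ne y.1.1
    (e.map_eq_zero_iff.1 (funext fun i => congrFun h i.succ))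
  have hug : ∀ (g : E.PS.G) y, u (g • y) = (g.2 : ℂ) • u y := fun g y => funext fun i => by
    refine Fin.cases rfl (fun i => ?_) i
    exact congrFun (e.map_smul (g.2 : ℂ) (VB.PT.w y.1.1)) i
  obtain ⟨k, hk⟩ := L.tot.isQuo.exists_lift (fun y : L.V => prj (u y)) fun g y => by
    exact (congrArg prj (hug g y)).trans (prj_smul g.2.ne_zero _)
  have hkc : Continuous k := L.tot.isQuo.continuous_lift
    (continuous_iff_continuousAt.2 fun y => continuousAt_prj hu.continuousAt (hu0 y)) hk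
  have hkP : ∀ x, k x ∈ PV ⊤ := fun x => by
    obtain ⟨y, rfl⟩ := L.tot.surj x
    exact ⟨u y, trivial, hu0 y, hk y⟩
  have ht : IsThom L.Z L.ch (hyp (Pi.single 0 1) k) := by
    refine L.isOVB.isThom_of (hyp_cocycle hkc hkP _) (fun x hx => ?_) (hyp_deg _ _) fun x => ?_
    · obtain ⟨y, rfl⟩ := L.tot.surj x
      have := supp_hyp hkc hkP _ hx
      rw [mem_setOf_eq, hk, prj_mulVec_eq_zero (hu0 y), ip_eq_zero_comm, ip_single] at this
      exact VB.mk_mem_Z.2 this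
    · obtain ⟨x, rfl⟩ := E.PS.surj x
      have c := VB.ch_mk (E := L) (t := x) (ℓ := (LinearMap.proj 0 : (Fin 1 → ℂ) →ₗ[ℂ] ℂ))
        (fun a b h => funext fun i => by rw [Subsingleton.elim i 0]; exact h)
        (LinearMap.range_eq_top.2 fun z => ⟨fun _ => z, rfl⟩)
      refine ⟨_, c, Mor.map_π _ _, ?_⟩
      let v : (Fin 1 → ℂ) → Fin (n + 1) → ℂ := fun a => Fin.cons (a 0) (e (VB.PT.w x))
      have h1 := hyp_cohom (u := v) (Continuous.finCons (continuous_apply 0) continuous_const)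
        (fun a => hu0 ⟨(x, a 0), trivial⟩) (Pi.single 0 1)
      simp only [ip_single] at h1
      have h2 : {a : Fin 1 → ℂ | v a 0 = 0} = {0} := by
        ext a
        exact ⟨fun h => funext fun i => by rw [Subsingleton.elim i 0]; exact h,
          fun h => by rw [show a = 0 from h]; rfl⟩
      rw [h2] at h1
      refine (congrArg P291Z.cls (pull_hyp _ _ _)).trans (Eq.trans (congrArg
        (fun g => P291Z.cls (hyp (Pi.single 0 1) g)) (funext fun a => hk _))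
        ((cls_eq_of_cohom isCompact_singleton h1).trans ?_))
      show _ = P291Z.cls (tau 1)
      simp [tau, v]
  let j : W →ₗ[ℂ] Fin (n + 1) → ℂ :=
    LinearMap.pi (Fin.cases 0 fun i => LinearMap.proj i ∘ₗ e.toLinearMap)
  have hj : ∀ x : E.PT, u (L.zero.f x) = j x.w := fun x => funext fun i => Fin.cases rfl (fun _ => rfl) i
  have hji : Injective j := (injective_iff_map_eq_zero _).2 fun w h =>
    e.map_eq_zero_iff.1 (funext fun i => congrFun h i.succ)
  have hj0 : ∀ x : E.PT, j x.w ≠ 0 := fun x => hj x ▸ hu0 _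
  have hkz : ∀ x : E.PT, k (L.zero.map (E.PS.π x)) = prj (j x.w) := fun x =>
    (congrArg k (L.zero.map_π x)).trans ((hk _).trans (congrArg prj (hj x)))
  have hmem : ∀ x, k (L.zero.map x) ∈ PV (LinearMap.range j) := fun x => by
    obtain ⟨x, rfl⟩ := E.PS.surj x
    exact ⟨_, ⟨_, rfl⟩, hj0 x, hkz x⟩
  let h : C(E.PS.X, PV (LinearMap.range j)) := ⟨fun x => ⟨k (L.zero.map x), hmem x⟩,
    (hkc.comp L.zero.map.continuous).subtype_mk hmem⟩
  have hh : IsHomeomorph h := by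
    refine isHomeomorph_iff_continuous_bijective.2 ⟨h.continuous, fun x y hxy => ?_, ?_⟩
    · obtain ⟨x, rfl⟩ := E.PS.surj x
      obtain ⟨y, rfl⟩ := E.PS.surj y
      obtain ⟨c, hc⟩ := exists_smul_of_prj (hj0 y)
        ((hkz x).symm.trans ((congrArg Subtype.val hxy).trans (hkz y)))
      have h0 : c ≠ 0 := fun h0 => hj0 y (by rw [hc, h0, zero_smul])
      exact (E.PS.fib _ _).2 ⟨(1, Units.mk0 c h0), VB.PT.ext (Subsingleton.elim _ _)
        (hji ((j.map_smul c _).trans hc.symm))⟩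
    · rintro ⟨_, _, ⟨w, rfl⟩, h0, rfl⟩
      exact ⟨E.PS.π (VB.PT.mk default w trivial fun h => h0 (by rw [h]; exact map_zero j)),
        Subtype.ext (hkz _)⟩
  have hxi : H.map h (xP _) = E.xi.1 := by
    rw [xP, map_xc h continuous_subtype_val PV.mem_top]
    refine Eq.trans ?_ (L.eu_eq ht L.isSec_zero.proj_map)
    rw [pull_hyp, hcls_hyp (hkc.comp (Mor.map _).continuous) fun _ => hkP _]
    rfl
  have := (isBasis_PV (LinearMap.range j) (k := n) (LinearMap.finrank_range_of_inj hji)).map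
    (φ := (H.mapA h).toLinearMap) (H.map_bijective_of_homeomorph hh.homeomorph)
  simpa only [AlgHom.toLinearMap_apply, map_pow, H.mapA_apply, hxi] using this

end base

theorem isUC_of_compact {Γ U X : Type} [Group Γ] [TopologicalSpace U] [TopologicalSpace X]
    [CompactSpace U] [T2Space X] {a : Γ → U → U} {q : U → X} (one : ∀ u, a 1 u = u)
    (mul : ∀ γ γ' u, a (γ * γ') u = a γ (a γ' u)) (cont_a : ∀ γ, Continuous (a γ))
    (cont : Continuous q) (hs : Surjective q) (fib : ∀ u u', q u = q u' ↔ ∃ γ, a γ u = u') :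
    IsUC a q := by
  refine ⟨one, mul, cont_a, cont, fun O hO => ?_, fib⟩
  rw [← (cont.isClosedMap.isQuotientMap cont hs).isOpen_preimage,
    show q ⁻¹' (q '' O) = ⋃ γ, a γ ⁻¹' O from ?_]
  · exact isOpen_iUnion fun γ => hO.preimage (cont_a γ)
  · ext u
    simp only [mem_preimage, mem_image, mem_iUnion]
    exact ⟨fun ⟨u', h1, h2⟩ => ((fib _ _).1 h2.symm).imp fun γ (h : a γ u = u') => h ▸ h1,
      fun ⟨γ, h⟩ => ⟨_, h, ((fib _ _).2 ⟨γ, rfl⟩).symm⟩⟩

/-- the inclusion of a point -/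
def Sp.at (Y : Sp) (t : Y.T) : Mor pt Y :=
  ⟨1, fun _ => t, continuous_const, continuous_const, fun _ _ => (one_smul _ t).symm⟩

theorem Sp.at_map (Y : Sp) (t : Y.T) : (Y.at t).map = ContinuousMap.const _ (Y.π t) := rfl

namespace VB

variable (E : VB Y)

theorem iso_at (t : Y.T) : Iso (Y.at t) (trivB pt (E.F t)) E fun _ => (E.F t).subtype :=
  ⟨Hom.of_continuous (fun _ w _ => w.2) (continuous_subtype_val.comp continuous_snd)
    fun _ _ _ _ => (one_smul Y.G _).symm, fun _ _ _ h => Subtype.ext h,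
    fun _ w h => ⟨⟨w, h⟩, trivial, rfl⟩⟩

theorem isBasis_fibre (x : Y.X) : Fl.IsBasis fun j : Fin E.r =>
    H.map (⟨Subtype.val, continuous_subtype_val⟩ : C(E.pp.map ⁻¹' {x}, E.PS.X)) (E.xi.1 ^ (j : ℕ)) := by
  obtain ⟨t, rfl⟩ := Y.surj x
  haveI : Nice (E.pp.map ⁻¹' {Y.π t}) :=
    Nice.of_isLocallyClosed (isClosed_singleton.preimage E.pp.map.continuous).isLocallyClosed
  haveI := Fintype.ofFinite (MulAction.stabilizer Y.G t)
  let E₀ := trivB pt (E.F t)
  let m := (E.iso_at t).pmor (E.iso_at t).inj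
  let q : E₀.PS.X → E.pp.map ⁻¹' {Y.π t} := fun x => ⟨m.map x, by
    obtain ⟨x, rfl⟩ := E₀.PS.surj x
    rw [mem_preimage, Mor.map_π, Mor.map_π]
    rfl⟩
  have hq : Continuous q := m.map.continuous.subtype_mk _
  let l : MulAction.stabilizer Y.G t → E.F t →ₗ[ℂ] E.F t := fun γ =>
    (DistribSMul.toLinearMap ℂ E.W γ.1).restrict fun w hw => by
      have := E.inv γ.1 t w hw
      rwa [show γ.1 • t = t from γ.2] at this
  have hl : ∀ γ, Hom (Mor.id pt) E₀ E₀ fun _ => l γ := fun γ =>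
    Hom.of_continuous (fun _ _ _ => trivial)
      ((l γ).continuous_of_finiteDimensional.comp continuous_snd) fun _ _ _ _ => rfl
  have hi : ∀ γ (s : pt.T) (w : E₀.W), w ∈ E₀.F s → l γ w = 0 → w = 0 := fun γ _ w _ h =>
    Subtype.ext ((smul_eq_zero_iff_eq γ.1).1 (congrArg Subtype.val h))
  have hs : Surjective q := by
    rintro ⟨x, hx⟩
    obtain ⟨x, rfl⟩ := E.PS.surj x
    rw [mem_preimage, Mor.map_π] at hx
    obtain ⟨g, hg⟩ := (Y.fib _ _).1 hx
    refine ⟨E₀.PS.π (PT.mk default (⟨g • PT.w x, hg ▸ E.inv g _ _ x.mem⟩ : E.F t) trivial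
      fun h => (smul_ne_zero_iff_ne g).2 x.ne (congrArg Subtype.val h)), Subtype.ext ?_⟩
    refine (m.map_π _).trans (Eq.trans (congrArg E.PS.π ?_) (E.PS.π_smul ((g, 1) : Y.G × ℂˣ) x))
    exact PT.ext hg.symm (one_smul ℂ _).symm
  have huc : IsUC (fun γ => ((hl γ).pmor (hi γ)).map) q := by
    refine isUC_of_compact (fun u => ?_) (fun γ γ' u => ?_) (fun γ => (Mor.map _).continuous) hq hs
      fun u u' => ?_
    · obtain ⟨u, rfl⟩ := E₀.PS.surj u
      exact (Mor.map_π _ _).trans (congrArg E₀.PS.π (PT.ext rfl (Subtype.ext (one_smul Y.G _))))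
    · obtain ⟨u, rfl⟩ := E₀.PS.surj u
      simp only [Mor.map_π]
      exact congrArg E₀.PS.π (PT.ext rfl (Subtype.ext (mul_smul γ.1 γ'.1 _)))
    · obtain ⟨u, rfl⟩ := E₀.PS.surj u
      obtain ⟨u', rfl⟩ := E₀.PS.surj u'
      have h1 : q (E₀.PS.π u) = q (E₀.PS.π u') ↔ E.PS.π (m.f u) = E.PS.π (m.f u') := by
        rw [← m.map_π, ← m.map_π]
        exact Subtype.ext_iff
      rw [h1, E.PS.fib]
      constructor
      · rintro ⟨g, hg⟩
        exact ⟨⟨g.1, congrArg PT.t hg⟩, (Mor.map_π _ _).trans ((E₀.PS.fib _ _).2 ⟨(1, g.2),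
          PT.ext (Subsingleton.elim _ _) (Subtype.ext (congrArg PT.w hg))⟩)⟩
      · rintro ⟨γ, h⟩
        obtain ⟨g, hg⟩ := (E₀.PS.fib _ _).1 ((Mor.map_π _ _).symm.trans h)
        exact ⟨(γ.1, g.2), PT.ext γ.2 (congrArg Subtype.val (congrArg PT.w hg))⟩
  have hinj := huc.map_injective hs
  have hb := isBasis_pt (E.F t)
  rw [E.rank] at hb
  have hm : ∀ j : Fin E.r, (H.mapA ⟨q, hq⟩).toLinearMap (H.map (⟨Subtype.val,
      continuous_subtype_val⟩ : C(E.pp.map ⁻¹' {Y.π t}, E.PS.X)) (E.xi.1 ^ (j : ℕ))) =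
      E₀.xi.1 ^ (j : ℕ) := fun j => by
    rw [AlgHom.toLinearMap_apply, H.mapA_apply, H.map_map, map_pow,
      ← (E.iso_at t).pmor_xi (E.iso_at t).inj]
    rfl
  refine Fl.IsBasis.mk (LinearIndependent.of_comp (H.mapA ⟨q, hq⟩).toLinearMap ?_) fun c _ => ?_
  · rw [show _ ∘ _ = _ from funext hm]
    exact hb.li
  · obtain ⟨a, ha⟩ := (Submodule.mem_span_range_iff_exists_fun ℂ).1
      (hb.span (Submodule.mem_top (x := H.mapA ⟨q, hq⟩ c)))
    refine (Submodule.mem_span_range_iff_exists_fun ℂ).2 ⟨a, hinj ?_⟩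
    rw [← H.mapA_apply, ← H.mapA_apply, ← ha, map_sum]
    exact Finset.sum_congr rfl fun j _ => by rw [map_smul, ← hm]; rfl

theorem xi_pow_deg (j : ℕ) : H.IsDeg (2 * j) (E.xi.1 ^ j) := by
  simpa [Hev.mem_deg] using Hev.pow_deg E.xi_deg j

/-- **The projective bundle theorem** -/
theorem lh_bijective : Bijective (H.lh E.pp.map fun j : Fin E.r => E.xi.1 ^ (j : ℕ)) :=
  Fl.lh_bijective E.isPr_pp (fun x => isFib_val E.pp.map.continuous x)
    (fun j => E.xi_pow_deg j) (fun j => by positivity) E.isBasis_fibre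

/-- **The projective bundle theorem**, compact supports -/
theorem lhc_bijective : Bijective (Fl.lhc E.isPr_pp fun j : Fin E.r => E.xi.1 ^ (j : ℕ)) :=
  Fl.lhc_bijective E.isPr_pp (fun x => isFib_val E.pp.map.continuous x)
    (fun j => E.xi_pow_deg j) (fun j => by positivity) E.isBasis_fibre

theorem pp_injective (h : 0 < E.r) : Injective (H.map E.pp.map) :=
  map_injective_of_lh h E.lh_bijective.1

end VB

end Vale.Agent.P269.Ch
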