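import Vale.Agent.P269.Z.Nice0

set_option linter.all false

/-!
# Equivariant continuous choices for proper, locally free actions
-/

namespace Vale.Agent.P269.Ch

open Set Function Topology Filter Vale.Agent.P291Z
open scoped Pointwise

variable {G T : Type} [Group G] [TopologicalSpace G] [TopologicalSpace T] [MulAction G T]

/-- the action is locally free at `t` -/
def LocFree (G : Type) [Group G] [TopologicalSpace G] [MulAction G T] (t : T) : Prop :=
  ∃ τ : T → G, (∀ᶠ x in 𝓝 t, ContinuousAt τ x) ∧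
    ∀ᶠ p : G × T in 𝓝 (1, t), τ (p.1 • p.2) = p.1 * τ p.2

theorem LocFree.box [IsTopologicalGroup G] {t : T} (h : LocFree G t) :
    ∃ (τ : T → G) (V : Set G) (U : Set T), τ t = 1 ∧ IsOpen V ∧ 1 ∈ V ∧ IsOpen U ∧ t ∈ U ∧
      (∀ x ∈ U, ContinuousAt τ x) ∧ ∀ g ∈ V, ∀ x ∈ U, τ (g • x) = g * τ x := by
  obtain ⟨τ, h1, h2⟩ := h
  rw [nhds_prod_eq] at h2
  obtain ⟨V, hV, U, hU, h3⟩ := eventually_prod_iff.1 h2
  obtain ⟨V', h4, h5, h6⟩ := mem_nhds_iff.1 hV
  obtain ⟨U', h7, h8, h9⟩ := mem_nhds_iff.1 (inter_mem hU h1)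
  refine ⟨fun x => τ x * (τ t)⁻¹, V', U', mul_inv_cancel _, h5, h6, h8, h9,
    fun x hx => (h7 hx).2.mul continuousAt_const, fun g hg x hx => ?_⟩
  rw [← mul_assoc]
  exact congrArg (· * (τ t)⁻¹) (h3 (h4 hg) (h7 hx).1)

theorem LocFree.t2Space [IsTopologicalGroup G] [ContinuousSMul G T] [T1Space T] {t : T}
    (h : LocFree G t) : T2Space G := by
  obtain ⟨τ, V, U, h1, h2, h3, -, h5, -, h7⟩ := h.box
  rw [IsTopologicalGroup.t2Space_iff_one_closed, ← closure_subset_iff_isClosed]
  intro g hg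
  have h8 : (1 : G) ⤳ g := specializes_iff_mem_closure.2 hg
  have h9 : t = g • t := by
    have := (h8.map (f := fun g : G => g • t) (by fun_prop)).eq
    rwa [one_smul] at this
  have := h7 g (h8.symm.mem_open h2 h3) t h5
  rw [← h9, h1, mul_one] at this
  exact this.symm

theorem locallyCompactSpace_of_proper [IsTopologicalGroup G] [ProperSMul G T]
    [WeaklyLocallyCompactSpace T] (t : T) : LocallyCompactSpace G := by
  obtain ⟨K, hK, hKt⟩ := exists_compact_mem_nhds t
  refine (ProperSMul.isCompact_setOfPred_inter_nonempty (G := G) (isCompact_singleton (x := t))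
    hK).locallyCompactSpace_of_mem_nhds_of_group (x := 1) ?_
  have : ContinuousAt (fun g : G => g • t) 1 := by fun_prop
  filter_upwards [this.preimage_mem_nhds (by rwa [one_smul])] with g hg
  exact ⟨g • t, ⟨t, rfl, rfl⟩, hg⟩

open Classical in
/-- the finitely supported measures `g ↦ ψ (g⁻¹ • x)` on `G` depend continuously on `x` -/
def IsWt (G : Type) [Group G] [TopologicalSpace G] [MulAction G T] (ψ : T → ℝ) : Prop :=
  ∀ x₀, ∃ (n : ℕ) (s : Fin n → T → G) (c : Fin n → T → ℝ), (∀ i, ContinuousAt (s i) x₀) ∧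
    (∀ i, ContinuousAt (c i) x₀) ∧
      ∀ᶠ x in 𝓝 x₀, ∀ g : G, ψ (g⁻¹ • x) = ∑ i, if g = s i x then c i x else 0

theorem IsWt.finite {ψ : T → ℝ} (h : IsWt G ψ) (x : T) :
    (support fun g : G => ψ (g⁻¹ • x)).Finite := by
  obtain ⟨n, s, c, -, -, h⟩ := h x
  refine (finite_range fun i => s i x).subset fun g hg => by_contra fun h' => hg ?_
  exact (h.self_of_nhds g).trans
    (Finset.sum_eq_zero fun i _ => if_neg fun e => h' ⟨i, e.symm⟩)

theorem IsWt.continuous {ψ : T → ℝ} (h : IsWt G ψ) {M : Type*} [AddCommGroup M] [Module ℝ M]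
    [TopologicalSpace M] [ContinuousAdd M] [ContinuousSMul ℝ M] {F : G × T → M}
    (hF : Continuous F) : Continuous fun x => ∑ᶠ g : G, ψ (g⁻¹ • x) • F (g, x) := by
  classical
  refine continuous_iff_continuousAt.2 fun x₀ => ?_
  obtain ⟨n, s, c, h1, h2, h3⟩ := h x₀
  have h4 : ContinuousAt (fun x => ∑ i, c i x • F (s i x, x)) x₀ :=
    tendsto_finset_sum _ fun i _ =>
      (h2 i).smul (hF.continuousAt.comp ((h1 i).prodMk continuousAt_id))
  refine h4.congr (h3.mono fun x hx => ?_)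
  simp only [hx, Finset.sum_smul]
  rw [finsum_sum_comm]
  · refine Finset.sum_congr rfl fun i _ => ?_
    rw [finsum_eq_single _ (s i x) fun g hg => by rw [if_neg hg, zero_smul], if_pos rfl]
  · exact fun i _ => (finite_singleton (s i x)).subset fun g hg => by_contra fun h' =>
      hg (by simp only [if_neg (show ¬ g = s i x from h'), zero_smul])

variable [IsTopologicalGroup G] [ProperSMul G T] [Nice T]

theorem LocFree.exists_wt {t : T} (h : LocFree G t) :
    ∃ ψ : T → ℝ, IsWt G ψ ∧ (∀ x, 0 ≤ ψ x) ∧ ψ t = 1 := by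
  classical
  haveI := h.t2Space
  haveI := locallyCompactSpace_of_proper (G := G) t
  obtain ⟨τ, V, U, h1, h2, h3, h4, h5, h6, h7⟩ := h.box
  obtain ⟨K, hKt, hKU, hK⟩ := local_compact_nhds (h4.mem_nhds h5)
  obtain ⟨χ, hχ1, hχ0, -, hχ⟩ := exists_continuous_one_zero_of_isCompact (isCompact_singleton (x := t))
    (isOpen_interior (s := K)).isClosed_compl
    (disjoint_singleton_left.2 fun h => h (mem_interior_iff_mem_nhds.2 hKt))
  have hz : ∀ x, x ∉ K → χ x = 0 := fun x hx => hχ0 fun h' => hx (interior_subset h')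
  let ψ : T → ℝ := fun x => if τ x = 1 then χ x else 0
  have hψ : ∀ x, x ∉ K → ψ x = 0 := fun x hx => by simp only [ψ, hz x hx, ite_self]
  refine ⟨ψ, fun x₀ => ?_, fun x => by
    simp only [ψ]
    split_ifs
    exacts [(hχ x).1, le_rfl], by simp only [ψ, h1, if_true]; exact hχ1 rfl⟩
  have loc : ∀ g₀ : G, ∃ (O : Set G) (s : T → G) (c : T → ℝ), IsOpen O ∧ g₀ ∈ O ∧
      ContinuousAt s x₀ ∧ ContinuousAt c x₀ ∧
      ∀ᶠ x in 𝓝 x₀, ∀ g ∈ O, ψ (g⁻¹ • x) = if g = s x then c x else 0 := fun g₀ => by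
    have hc : Continuous fun x : T => g₀⁻¹ • x := by fun_prop
    by_cases h8 : g₀⁻¹ • x₀ ∈ U
    · have hs : ContinuousAt (fun x => g₀ * τ (g₀⁻¹ • x)) x₀ :=
        continuousAt_const.mul ((h6 _ h8).comp (f := fun x : T => g₀⁻¹ • x) hc.continuousAt)
      refine ⟨(fun g => g⁻¹ * g₀) ⁻¹' V, fun x => g₀ * τ (g₀⁻¹ • x),
        fun x => χ ((g₀ * τ (g₀⁻¹ • x))⁻¹ • x), h2.preimage (by fun_prop), by simpa using h3, hs,
        χ.continuous.continuousAt.comp (hs.inv.smul continuousAt_id), ?_⟩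
      filter_upwards [hc.continuousAt.preimage_mem_nhds (h4.mem_nhds h8)] with x hx g hg
      have h9 := h7 _ hg _ hx
      rw [smul_smul, mul_assoc, mul_inv_cancel, mul_one, mul_assoc] at h9
      have h10 : τ (g⁻¹ • x) = 1 ↔ g = g₀ * τ (g₀⁻¹ • x) := by rw [h9, inv_mul_eq_one]
      simp only [ψ, h10]
      split_ifs with h11
      · rw [← h11]
      · rfl
    · have h9 : ∀ᶠ p : G × T in 𝓝 (g₀, x₀), p.1⁻¹ • p.2 ∉ K :=
        (show ContinuousAt (fun p : G × T => p.1⁻¹ • p.2) (g₀, x₀) by fun_prop).eventually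
          (hK.isClosed.isOpen_compl.mem_nhds fun h' => h8 (hKU h'))
      rw [nhds_prod_eq] at h9
      obtain ⟨O, hO, N, hN, h10⟩ := eventually_prod_iff.1 h9
      obtain ⟨O', h11, h12, h13⟩ := mem_nhds_iff.1 hO
      refine ⟨O', fun _ => 1, fun _ => 0, h12, h13, continuousAt_const, continuousAt_const, ?_⟩
      filter_upwards [hN] with x hx g hg
      rw [hψ _ (h10 (h11 hg) hx), ite_self]
  choose O s c hO hgO hs hc hl using loc
  obtain ⟨N, hN, hNx⟩ := exists_compact_mem_nhds x₀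
  have hL := ProperSMul.isCompact_setOfPred_inter_nonempty (G := G) hK hN
  obtain ⟨F, hF⟩ := hL.elim_finite_subcover O hO fun g _ => mem_iUnion.2 ⟨g, hgO g⟩
  let e : Fin F.card → G := fun i => (F.equivFin.symm i : G)
  obtain ⟨φ, hφ1, hφ2, -, -⟩ := exists_continuous_sum_one_of_isOpen_isCompact
    (s := fun i => O (e i)) (fun i => hO _) hL fun g hg => by
      obtain ⟨j, hj, h'⟩ := mem_iUnion₂.1 (hF hg)
      exact mem_iUnion.2 ⟨F.equivFin ⟨j, hj⟩, by simpa [e] using h'⟩
  refine ⟨F.card, fun i => s (e i), fun i x => φ i (s (e i) x) * c (e i) x, fun i => hs _,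
    fun i => ((φ i).continuous.continuousAt.comp (hs _)).mul (hc _), ?_⟩
  filter_upwards [hNx, eventually_all.2 fun i => hl (e i)] with x hx hx' g
  have h8 : ∀ i, (if g = s (e i) x then φ i (s (e i) x) * c (e i) x else 0) =
      φ i g * ψ (g⁻¹ • x) := fun i => by
    by_cases h9 : φ i g = 0
    · rw [h9, zero_mul]
      split_ifs with h10
      · rw [← h10, h9, zero_mul]
      · rfl
    · rw [hx' i g (hφ1 i (subset_tsupport _ h9))]
      split_ifs with h10
      · rw [← h10]
      · rw [mul_zero]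
  rw [Finset.sum_congr rfl fun i _ => h8 i, ← Finset.sum_mul]
  by_cases h9 : g⁻¹ • x ∈ K
  · have := hφ2 (show g ∈ {g : G | (g • K ∩ N).Nonempty} from
      ⟨x, ⟨_, h9, smul_inv_smul g x⟩, hx⟩)
    simp only [ContinuousMap.coe_sum, Finset.sum_apply, Pi.one_apply] at this
    rw [this, one_mul]
  · rw [hψ _ h9, mul_zero]

theorem nice_quot (G T : Type) [Group G] [TopologicalSpace G] [TopologicalSpace T] [MulAction G T]
    [ProperSMul G T] [Nice T] : Nice (MulAction.orbitRel.Quotient G T) :=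
  ⟨inferInstance, MulAction.isOpenQuotientMap_quotientMk.locallyCompactSpace,
    ContinuousConstSMul.secondCountableTopology⟩

/-- **Equivariant continuous sections of convex families** -/
theorem exists_section (hf : ∀ t : T, LocFree G t) {M : Type*} [AddCommGroup M] [Module ℝ M]
    [TopologicalSpace M] [ContinuousAdd M] [ContinuousSMul ℝ M] [DistribMulAction G M]
    [SMulCommClass G ℝ M] [ContinuousSMul G M] {C : T → Set M} (hC : ∀ t, Convex ℝ (C t))
    (hG : ∀ (g : G) t m, m ∈ C t → g • m ∈ C (g • t))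
    (hl : ∀ t, ∃ U ∈ 𝓝 t, ∃ σ : T → M, ContinuousOn σ U ∧ ∀ x ∈ U, σ x ∈ C x) :
    ∃ σ : T → M, Continuous σ ∧ (∀ (g : G) t, σ (g • t) = g • σ t) ∧ ∀ t, σ t ∈ C t := by
  obtain ⟨σ₀, h₀⟩ := exists_continuous_forall_mem_convex_of_local hC hl
  choose ψ h1 h2 h3 using fun t => (hf t).exists_wt
  let w : T → T → ℝ := fun t x => ∑ᶠ g : G, ψ t (g⁻¹ • x)
  let F : T → T → M := fun t x => ∑ᶠ g : G, ψ t (g⁻¹ • x) • g • σ₀ (g⁻¹ • x)
  have hw : ∀ t, Continuous (w t) := fun t => by
    simpa using (h1 t).continuous (F := fun _ => (1 : ℝ)) continuous_const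
  have hF : ∀ t, Continuous (F t) := fun t =>
    (h1 t).continuous (F := fun p => p.1 • σ₀ (p.1⁻¹ • p.2)) (by fun_prop)
  have hwi : ∀ t (h : G) x, w t (h • x) = w t x := fun t h x => by
    refine (finsum_comp_equiv (Equiv.mulLeft h)).symm.trans ?_
    simp [w, smul_smul]
  have hFi : ∀ t (h : G) x, F t (h • x) = h • F t x := fun t h x => by
    refine (finsum_comp_equiv (Equiv.mulLeft h)).symm.trans ?_
    refine Eq.trans ?_ ((DistribMulAction.toAddEquiv M h).map_finsum _).symm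
    refine finsum_congr fun g => ?_
    simp only [Equiv.coe_mulLeft, mul_inv_rev, DistribMulAction.toAddEquiv_apply]
    rw [smul_comm h, ← mul_smul h g, smul_smul (g⁻¹ * h⁻¹) h, inv_mul_cancel_right]
  have hw0 : ∀ t, 0 < w t t := fun t =>
    finsum_pos (fun g => h2 t _) ⟨1, by rw [inv_one, one_smul, h3]; exact one_pos⟩ ((h1 t).finite t)
  have hFC : ∀ t x, 0 < w t x → (w t x)⁻¹ • F t x ∈ C x := fun t x hx => by
    have h4 : (w t x)⁻¹ • F t x = ∑ᶠ g : G, ((w t x)⁻¹ * ψ t (g⁻¹ • x)) • g • σ₀ (g⁻¹ • x) := by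
      refine (smul_finsum' _ (((h1 t).finite x).subset (support_smul_subset_left
        (fun g : G => ψ t (g⁻¹ • x)) fun g => g • σ₀ (g⁻¹ • x)))).trans ?_
      exact finsum_congr fun g => smul_smul _ _ _
    rw [h4]
    refine (hC x).finsum_mem (fun g => mul_nonneg (inv_nonneg.2 hx.le) (h2 t _)) ?_ fun g _ => ?_
    · rw [← mul_finsum' _ _ ((h1 t).finite x)]
      exact inv_mul_cancel₀ hx.ne'
    · have := hG g _ _ (h₀ (g⁻¹ • x))
      rwa [smul_inv_smul] at this
  haveI := nice_quot G T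
  let π : T → MulAction.orbitRel.Quotient G T := Quotient.mk _
  have hπ : IsOpenQuotientMap π := MulAction.isOpenQuotientMap_quotientMk
  have hπi : ∀ (h : G) x, π (h • x) = π x := fun h x => Quotient.sound ⟨h, rfl⟩
  have hpre : ∀ t x, π x ∈ π '' {y | 0 < w t y} → 0 < w t x := by
    rintro t x ⟨y, hy, e⟩
    obtain ⟨h, rfl⟩ := Quotient.exact e
    exact (hwi t h x) ▸ hy
  obtain ⟨ρ, hρ⟩ := PartitionOfUnity.exists_isSubordinate isClosed_univ
    (fun t => π '' {y | 0 < w t y})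
    (fun t => hπ.isOpenMap _ (isOpen_lt continuous_const (hw t))) fun b _ => by
      obtain ⟨t, rfl⟩ := hπ.surjective b
      exact mem_iUnion.2 ⟨t, t, hw0 t, rfl⟩
  refine ⟨fun x => ∑ᶠ t, ρ t (π x) • (w t x)⁻¹ • F t x, continuous_finsum (fun t => ?_)
    ((ρ.locallyFinite.preimage_continuous hπ.continuous).subset fun t x hx =>
      support_smul_subset_left (fun x => ρ t (π x)) _ hx), fun h x => ?_, fun x =>
    (hC x).finsum_mem (fun t => ρ.nonneg t _) (ρ.sum_eq_one (mem_univ _)) fun t ht =>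
      hFC t x (hpre t x (hρ t (subset_tsupport _ ht)))⟩
  · refine continuous_iff_continuousAt.2 fun x => ?_
    by_cases hx : π x ∈ tsupport (ρ t)
    · exact ((ρ t).continuous.comp hπ.continuous).continuousAt.smul
        (((hw t).continuousAt.inv₀ (hpre t x (hρ t hx)).ne').smul (hF t).continuousAt)
    · refine (continuousAt_const (y := (0 : M))).congr ?_
      filter_upwards [hπ.continuous.continuousAt.preimage_mem_nhds
        ((isClosed_tsupport _).isOpen_compl.mem_nhds hx)] with y hy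
      rw [image_eq_zero_of_notMem_tsupport hy, zero_smul]
  · refine Eq.trans ?_ ((DistribMulAction.toAddEquiv M h).map_finsum _).symm
    refine finsum_congr fun t => ?_
    simp only [DistribMulAction.toAddEquiv_apply]
    rw [hπi, hwi, hFi, smul_comm h, smul_comm h]

end Vale.Agent.P269.Ch
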