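import Vale.Agent.P291Z.Fl0

set_option linter.all false

/-!
# The commutative ring of even cohomology classes
-/

namespace Vale.Agent.P269.Ch

open Set Function Topology Filter Vale.Agent.P291Z Polynomial

variable {X Y Z : Type} [TopologicalSpace X] [TopologicalSpace Y] [TopologicalSpace Z]

/-- the even part of the cohomology ring -/
noncomputable def Hev (X : Type) [TopologicalSpace X] : Subalgebra ℂ (H X) :=
  (Submodule.span ℂ {c | ∃ k : ℤ, H.IsDeg (2 * k) c}).toSubalgebra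
    (Submodule.subset_span ⟨0, by rw [mul_zero]; exact H.isDeg_one⟩) fun a b ha hb => by
      have := Submodule.mul_mem_mul ha hb
      rw [Submodule.span_mul_span] at this
      refine Submodule.span_mono ?_ this
      rintro _ ⟨a, ⟨k, ha⟩, b, ⟨l, hb⟩, rfl⟩
      exact ⟨k + l, by rw [mul_add]; exact ha.mul hb⟩

theorem mem_Hev {k : ℤ} {c : H X} (h : H.IsDeg (2 * k) c) : c ∈ Hev X :=
  Submodule.subset_span ⟨k, h⟩

theorem Hev.induction {P : H X → Prop} {c : H X} (hc : c ∈ Hev X)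
    (h : ∀ k c, H.IsDeg (2 * k) c → P c) (hadd : ∀ a b, P a → P b → P (a + b)) : P c := by
  have key : ∀ c ∈ Submodule.span ℂ {c : H X | ∃ k : ℤ, H.IsDeg (2 * k) c}, ∀ z : ℂ, P (z • c) :=
    fun c hc => Submodule.span_induction
      (fun c ⟨k, hk⟩ z => h k _ ((H.deg X _).smul_mem z hk))
      (fun z => h 0 _ (by rw [smul_zero]; exact (H.deg X _).zero_mem))
      (fun a b _ _ ha hb z => by rw [smul_add]; exact hadd _ _ (ha z) (hb z))
      (fun w a _ ha z => by rw [smul_smul]; exact ha _) hc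
  simpa using key c hc 1

theorem Hev.commute {c : H X} (hc : c ∈ Hev X) (c' : H X) : c * c' = c' * c :=
  Hev.induction (P := fun c => c * c' = c' * c) hc (fun k _ h => h.commute (even_two_mul k) c')
    fun a b ha hb => by rw [add_mul, mul_add, ha, hb]

noncomputable instance : CommRing (Hev X) :=
  { (inferInstance : Ring (Hev X)) with mul_comm := fun a b => Subtype.ext (Hev.commute a.2 b.1) }

theorem Hev.comp_odd {c : H X} (hc : c ∈ Hev X) {k : ℤ} (hk : Odd k) : H.comp k c = 0 :=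
  Hev.induction (P := fun c => H.comp k c = 0) hc
    (fun l _ h => h.comp_ne fun e => (Int.not_even_iff_odd.2 hk) (e ▸ even_two_mul l))
    fun a b ha hb => by rw [map_add, ha, hb, add_zero]

theorem mem_Hev_iff {c : H X} : c ∈ Hev X ↔ ∀ k, Odd k → H.comp k c = 0 := by
  refine ⟨fun h k hk => Hev.comp_odd h hk, fun h => ?_⟩
  obtain ⟨N, hN⟩ := H.exists_sum_comp c
  rw [← hN N le_rfl]
  refine Subalgebra.sum_mem _ fun k _ => ?_
  rcases Int.even_or_odd (k : ℤ) with ⟨l, hl⟩ | hk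
  · exact mem_Hev (k := l) (by rw [two_mul, ← hl]; exact H.isDeg_comp _ c)
  · rw [h k hk]
    exact zero_mem _

theorem map_mem_Hev (f : C(X, Y)) {c : H Y} (hc : c ∈ Hev Y) : H.map f c ∈ Hev X :=
  Hev.induction (P := fun c => H.map f c ∈ Hev X) hc (fun k _ h => mem_Hev (h.map f))
    fun a b ha hb => by rw [map_add]; exact add_mem ha hb

/-- pull-back of even classes -/
noncomputable def Hev.map (f : C(X, Y)) : Hev Y →ₐ[ℂ] Hev X :=
  ((H.mapA f).comp (Hev Y).val).codRestrict (Hev X) fun c => map_mem_Hev f c.2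

@[simp] theorem Hev.coe_map (f : C(X, Y)) (c : Hev Y) : (Hev.map f c : H X) = H.map f c := rfl

theorem Hev.map_map (f : C(X, Y)) (g : C(Y, Z)) (c : Hev Z) :
    Hev.map f (Hev.map g c) = Hev.map (g.comp f) c := Subtype.ext (H.map_map f g c)

theorem Hev.map_id {f : C(X, X)} (hf : ∀ x, f x = x) (c : Hev X) : Hev.map f c = c :=
  Subtype.ext (H.map_id hf c)

theorem Hev.map_injective {f : C(X, Y)} (h : Injective (H.map f)) : Injective (Hev.map f) :=
  fun _ _ e => Subtype.ext (h (congrArg Subtype.val e))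

theorem Hev.map_surjective {f : C(X, Y)} (h : Bijective (H.map f)) : Surjective (Hev.map f) :=
  fun c => by
    obtain ⟨a, ha⟩ := h.2 c.1
    refine ⟨⟨a, mem_Hev_iff.2 fun k hk => h.1 ?_⟩, Subtype.ext ha⟩
    rw [← H.comp_map, ha, Hev.comp_odd c.2 hk, map_zero]

/-- an even class is homogeneous of (complex) degree `k` -/
noncomputable def Hev.deg (X : Type) [TopologicalSpace X] (k : ℤ) : Submodule ℂ (Hev X) :=
  (H.deg X (2 * k)).comap (Hev X).val.toLinearMap

theorem Hev.mem_deg {k : ℤ} {c : Hev X} : c ∈ Hev.deg X k ↔ H.IsDeg (2 * k) c.1 := Iff.rfl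

theorem Hev.mul_deg {k l : ℤ} {a b : Hev X} (ha : a ∈ Hev.deg X k) (hb : b ∈ Hev.deg X l) :
    a * b ∈ Hev.deg X (k + l) := by
  rw [Hev.mem_deg, mul_add]
  exact H.IsDeg.mul ha hb

theorem Hev.one_deg : (1 : Hev X) ∈ Hev.deg X 0 := H.isDeg_one

theorem Hev.pow_deg {k : ℤ} {a : Hev X} (ha : a ∈ Hev.deg X k) (n : ℕ) :
    a ^ n ∈ Hev.deg X (n * k) := by
  induction n with
  | zero => simpa using Hev.one_deg
  | succ n ih =>
    rw [pow_succ, Nat.cast_succ, add_mul, one_mul]
    exact Hev.mul_deg ih ha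

theorem Hev.prod_deg {ι : Type*} (s : Finset ι) {d : ι → ℤ} {a : ι → Hev X}
    (ha : ∀ i ∈ s, a i ∈ Hev.deg X (d i)) : ∏ i ∈ s, a i ∈ Hev.deg X (∑ i ∈ s, d i) := by
  classical
  induction s using Finset.induction_on with
  | empty => simpa using Hev.one_deg
  | insert i s hi ih =>
    rw [Finset.prod_insert hi, Finset.sum_insert hi]
    exact Hev.mul_deg (ha i (Finset.mem_insert_self _ _))
      (ih fun j hj => ha j (Finset.mem_insert_of_mem hj))

theorem Hev.map_deg (f : C(X, Y)) {k : ℤ} {c : Hev Y} (hc : c ∈ Hev.deg Y k) :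
    Hev.map f c ∈ Hev.deg X k := H.IsDeg.map hc f

theorem Hev.deg_of_map {f : C(X, Y)} (hf : Injective (H.map f)) {k : ℤ} {c : Hev Y}
    (hc : Hev.map f c ∈ Hev.deg X k) : c ∈ Hev.deg Y k := by
  have : H.comp (2 * k) c.1 = c.1 := hf (by rw [← H.comp_map]; exact H.IsDeg.comp_eq hc)
  rw [Hev.mem_deg, ← this]
  exact H.isDeg_comp _ _

theorem Hev.eq_zero_of_neg {k : ℤ} {c : Hev X} (hc : c ∈ Hev.deg X k) (hk : k < 0) : c = 0 :=
  Subtype.ext (H.IsDeg.eq_zero hc (by omega))

/-- the homogeneous component of complex degree `k` -/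
noncomputable def Hev.comp (k : ℤ) : Hev X →ₗ[ℂ] Hev X :=
  (H.comp (2 * k) ∘ₗ (Hev X).val.toLinearMap).codRestrict (Hev X).toSubmodule
    fun c => mem_Hev (H.isDeg_comp _ _)

@[simp] theorem Hev.coe_comp (k : ℤ) (c : Hev X) : (Hev.comp k c : H X) = H.comp (2 * k) c := rfl

theorem Hev.comp_deg (k : ℤ) (c : Hev X) : Hev.comp k c ∈ Hev.deg X k := H.isDeg_comp _ _

theorem Hev.comp_eq {k : ℤ} {c : Hev X} (h : c ∈ Hev.deg X k) : Hev.comp k c = c :=
  Subtype.ext (H.IsDeg.comp_eq h)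

theorem Hev.comp_ne {k j : ℤ} {c : Hev X} (h : c ∈ Hev.deg X k) (hj : j ≠ k) :
    Hev.comp j c = 0 := Subtype.ext (H.IsDeg.comp_ne h (by omega))

theorem Hev.ext_comp {a b : Hev X} (h : ∀ k, Hev.comp k a = Hev.comp k b) : a = b :=
  Subtype.ext (H.ext_comp fun k => by
    rcases Int.even_or_odd k with ⟨l, rfl⟩ | hk
    · rw [← two_mul]
      exact congrArg Subtype.val (h l)
    · rw [Hev.comp_odd a.2 hk, Hev.comp_odd b.2 hk])

theorem Hev.comp_map (f : C(X, Y)) (k : ℤ) (c : Hev Y) :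
    Hev.comp k (Hev.map f c) = Hev.map f (Hev.comp k c) := Subtype.ext (H.comp_map f _ c.1)

theorem Hev.comp_mul {q : ℤ} {t : Hev X} (ht : t ∈ Hev.deg X q) (k : ℤ) (c : Hev X) :
    Hev.comp (k + q) (c * t) = Hev.comp k c * t := Subtype.ext (by
  have := H.comp_mul_right ht (2 * k) c.1
  rwa [← mul_add] at this)

/-- a class of degree zero is determined by its values at the points -/
theorem H.eq_zero_of_points {c : H X} (hc : H.IsDeg 0 c)
    (h : ∀ x : X, H.map (ContinuousMap.const Unit x) c = 0) : c = 0 := by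
  obtain ⟨a, h1, h2, rfl⟩ := H.isDeg_iff.1 hc
  have : a = 0 := IsDeg.ext_zero h2 (isDeg_zero 0) fun x => by
    have h3 := h x
    have h4 : pull (ContinuousMap.const Unit x) a = a.1 [x] • 1 := by
      rw [← fn_const]
      exact IsDeg.ext_zero (h2.pull _) (isDeg_fn _) fun _ => rfl
    rw [H.map_hcls _ h1, h4, hcls_smul _ cocycle_one, hcls_one] at h3
    exact (smul_eq_zero.1 h3).resolve_right hcls_one_ne_zero
  rw [this, hcls_zero]

theorem H.map_const_eq_zero (y : Y) {k : ℤ} (hk : k ≠ 0) {c : H Y} (hc : H.IsDeg k c) :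
    H.map (ContinuousMap.const X y) c = 0 := by
  obtain ⟨z, hz⟩ := H.map_const (X := X) y c
  have := (hc.map (ContinuousMap.const X y)).comp_eq
  rw [← this, hz, map_smul, H.isDeg_one.comp_ne hk, smul_zero]

/-! ### Leray-Hirsch for powers of a class of degree two, in terms of polynomials -/

section mon

variable {R S : Type*} [CommRing R] [CommRing S]

/-- monic of degree `r` (a notion that is also correct over the zero ring) -/
structure Mon (r : ℕ) (P : R[X]) : Prop where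
  coeff : P.coeff r = 1
  le : P.natDegree ≤ r

theorem Mon.monic {r : ℕ} {P : R[X]} (h : Mon r P) : P.Monic :=
  monic_of_natDegree_le_of_coeff_eq_one r h.le h.coeff

theorem Mon.mul {r s : ℕ} {P Q : R[X]} (h : Mon r P) (h' : Mon s Q) : Mon (r + s) (P * Q) :=
  ⟨by rw [coeff_mul_add_eq_of_natDegree_le h.le h'.le, h.coeff, h'.coeff, mul_one],
    natDegree_mul_le.trans (add_le_add h.le h'.le)⟩

theorem Mon.map {r : ℕ} {P : R[X]} (h : Mon r P) (f : R →+* S) : Mon r (P.map f) :=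
  ⟨by rw [coeff_map, h.coeff, map_one], natDegree_map_le.trans h.le⟩

theorem mon_one : Mon 0 (1 : R[X]) := ⟨coeff_one_zero, natDegree_one.le⟩

theorem mon_X_add_C (a : R) : Mon 1 (Polynomial.X + C a) :=
  ⟨by simp, (natDegree_add_le _ _).trans (max_le natDegree_X_le (by simp))⟩

theorem mon_prod {ι : Type*} (s : Finset ι) {d : ι → ℕ} {P : ι → R[X]}
    (h : ∀ i ∈ s, Mon (d i) (P i)) : Mon (∑ i ∈ s, d i) (∏ i ∈ s, P i) := by
  classical
  induction s using Finset.induction_on with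
  | empty => simpa using mon_one
  | insert i s hi ih =>
    rw [Finset.prod_insert hi, Finset.sum_insert hi]
    exact (h i (Finset.mem_insert_self _ _)).mul (ih fun j hj => h j (Finset.mem_insert_of_mem hj))

theorem mon_prod_X_add_C {ι : Type*} [Fintype ι] (a : ι → R) :
    Mon (Fintype.card ι) (∏ i, (Polynomial.X + C (a i))) := by
  simpa using mon_prod Finset.univ (d := fun _ => 1) fun i _ => mon_X_add_C (a i)

theorem Mon.degree_sub {r : ℕ} {P Q : R[X]} (h : Mon r P) (h' : Mon r Q) : (P - Q).degree < r :=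
  (degree_lt_iff_coeff_zero _ _).2 fun m hm => by
    rcases hm.eq_or_lt with rfl | hm
    · rw [coeff_sub, h.coeff, h'.coeff, sub_self]
    · rw [coeff_sub, coeff_eq_zero_of_natDegree_lt (h.le.trans_lt hm),
        coeff_eq_zero_of_natDegree_lt (h'.le.trans_lt hm), sub_self]

theorem mon_sub {r : ℕ} {P : R[X]} (h : P.degree < r) : Mon r (Polynomial.X ^ r - P) :=
  ⟨by rw [coeff_sub, coeff_X_pow_self, coeff_eq_zero_of_degree_lt h, sub_zero],
    (natDegree_sub_le _ _).trans (max_le (natDegree_X_pow_le r) (natDegree_le_of_degree_le h.le))⟩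

theorem Mon.eq_one {P : R[X]} (h : Mon 0 P) : P = 1 := by
  rw [eq_C_of_natDegree_le_zero h.le, h.coeff, C_1]

theorem Mon.eq_X_add_C {P : R[X]} (h : Mon 1 P) : P = Polynomial.X + C (P.coeff 0) := by
  conv_lhs => rw [eq_X_add_C_of_natDegree_le_one h.le, h.coeff, C_1, one_mul]

end mon

section lh

variable {p : C(X, Y)} {ξ : Hev X} {r : ℕ}

/-- evaluation at `ξ` of a polynomial with coefficients pulled back along `p` -/
noncomputable def evP (p : C(X, Y)) (ξ : Hev X) : (Hev Y)[X] →+* Hev X :=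
  eval₂RingHom (Hev.map p : Hev Y →+* Hev X) ξ

theorem evP_C (a : Hev Y) : evP p ξ (C a) = Hev.map p a := eval₂_C _ _

theorem evP_X : evP p ξ Polynomial.X = ξ := eval₂_X _ _

theorem evP_eq (P : (Hev Y)[X]) : evP p ξ P = (P.map (Hev.map p : Hev Y →+* Hev X)).eval ξ :=
  eval₂_eq_eval_map _

theorem evP_monomial (j : ℕ) (a : Hev Y) : evP p ξ (monomial j a) = Hev.map p a * ξ ^ j :=
  eval₂_monomial _ _

theorem map_evP (f : C(Z, X)) (P : (Hev Y)[X]) :
    Hev.map f (evP p ξ P) = evP (p.comp f) (Hev.map f ξ) P := by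
  induction P using Polynomial.induction_on' with
  | add P Q h h' => rw [map_add, map_add, map_add, h, h']
  | monomial j a => rw [evP_monomial, evP_monomial, map_mul, map_pow, Hev.map_map]

theorem evP_map (f : C(Y, Z)) (P : (Hev Z)[X]) :
    evP p ξ (P.map (Hev.map f : Hev Z →+* Hev Y)) = evP (f.comp p) ξ P := by
  induction P using Polynomial.induction_on' with
  | add P Q h h' => rw [Polynomial.map_add, map_add, map_add, h, h']
  | monomial j a =>
    rw [Polynomial.map_monomial, evP_monomial, evP_monomial]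
    exact congrArg (· * ξ ^ j) (Hev.map_map p f a)

theorem lh_eq_evP (a : Fin r →₀ H Y) (b : Fin r → Hev Y) (h : ∀ j, a j = b j) :
    H.lh p (fun j : Fin r => ξ.1 ^ (j : ℕ)) a =
      (evP p ξ (∑ j : Fin r, monomial (j : ℕ) (b j)) : Hev X) := by
  rw [map_sum, AddSubmonoidClass.coe_finset_sum, ← Finsupp.univ_sum_single a, map_sum]
  refine Finset.sum_congr rfl fun j _ => ?_
  rw [H.lh_single, evP_monomial, h]
  rfl

theorem eq_zero_of_lh (h : Injective (H.lh p fun j : Fin r => ξ.1 ^ (j : ℕ))) {P : (Hev Y)[X]}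
    (hP : P.degree < r) (h0 : evP p ξ P = 0) : P = 0 := by
  have e : ∑ j : Fin r, monomial (j : ℕ) (P.coeff j) = P :=
    (P.sum_fin (fun j a => monomial j a) (by simp) hP).trans P.sum_monomial_eq
  have h1 := lh_eq_evP (p := p) (ξ := ξ)
    (Finsupp.equivFunOnFinite.symm fun j : Fin r => (P.coeff j).1) (fun j => P.coeff j) fun _ => rfl
  rw [e, h0] at h1
  have h2 := (injective_iff_map_eq_zero _).1 h _ h1
  rw [← e]
  refine Finset.sum_eq_zero fun j _ => ?_
  rw [show P.coeff j = 0 from Subtype.ext (DFunLike.congr_fun h2 j), monomial_zero_right]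

theorem Mon.eq_of_lh (h : Injective (H.lh p fun j : Fin r => ξ.1 ^ (j : ℕ))) {P Q : (Hev Y)[X]}
    (hP : Mon r P) (hQ : Mon r Q) (e : evP p ξ P = evP p ξ Q) : P = Q :=
  sub_eq_zero.1 (eq_zero_of_lh h (hP.degree_sub hQ) (by rw [map_sub, e, sub_self]))

theorem comp_lh (hξ : ξ ∈ Hev.deg X 1) (a : Fin r →₀ H Y) (k : ℤ) :
    H.comp k (H.lh p (fun j : Fin r => ξ.1 ^ (j : ℕ)) a) =
      H.lh p (fun j : Fin r => ξ.1 ^ (j : ℕ))
        (Finsupp.equivFunOnFinite.symm fun j => H.comp (k - 2 * j) (a j)) := by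
  conv_lhs => rw [← Finsupp.univ_sum_single a]
  conv_rhs => rw [← Finsupp.univ_sum_single (Finsupp.equivFunOnFinite.symm _)]
  rw [map_sum, map_sum, map_sum]
  refine Finset.sum_congr rfl fun j _ => ?_
  have h1 : H.IsDeg (2 * j) (ξ.1 ^ (j : ℕ)) := by
    simpa [Hev.mem_deg] using Hev.pow_deg hξ j
  have := H.comp_mul_right h1 (k - 2 * j) (H.map p (a j))
  rw [sub_add_cancel] at this
  rw [H.lh_single, H.lh_single, this, H.comp_map]
  rfl

theorem exists_of_lh (h : Surjective (H.lh p fun j : Fin r => ξ.1 ^ (j : ℕ)))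
    (hξ : ξ ∈ Hev.deg X 1) {k : ℤ} {c : Hev X} (hc : c ∈ Hev.deg X k) :
    ∃ P : (Hev Y)[X], P.degree < r ∧ (∀ j : ℕ, P.coeff j ∈ Hev.deg Y (k - j)) ∧ evP p ξ P = c := by
  obtain ⟨a, ha⟩ := h c.1
  have hd : ∀ j : Fin r, H.IsDeg (2 * (k - j)) (H.comp (2 * k - 2 * j) (a j)) := fun j => by
    rw [mul_sub]
    exact H.isDeg_comp _ _
  refine ⟨∑ j : Fin r, monomial (j : ℕ) ⟨_, mem_Hev (hd j)⟩, mem_degreeLT.1
    (Submodule.sum_mem _ fun j _ => monomial_coe_mem_degreeLT j _), fun j => ?_, Subtype.ext ?_⟩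
  · rw [finset_sum_coeff]
    refine Submodule.sum_mem _ fun i _ => ?_
    rw [coeff_monomial]
    split_ifs with e
    · rw [← e]
      exact hd i
    · exact zero_mem _
  · rw [← lh_eq_evP (Finsupp.equivFunOnFinite.symm fun j => H.comp (2 * k - 2 * j) (a j)) _
      fun _ => rfl, ← comp_lh hξ, ha]
    exact H.IsDeg.comp_eq hc

theorem exists_mon_of_lh (h : Surjective (H.lh p fun j : Fin r => ξ.1 ^ (j : ℕ)))
    (hξ : ξ ∈ Hev.deg X 1) : ∃ P : (Hev Y)[X], Mon r P ∧
      (∀ j : ℕ, P.coeff j ∈ Hev.deg Y (r - j)) ∧ evP p ξ P = 0 := by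
  obtain ⟨P, h1, h2, h3⟩ := exists_of_lh h hξ (k := r) (c := ξ ^ r)
    (by simpa using Hev.pow_deg hξ r)
  refine ⟨Polynomial.X ^ r - P, mon_sub h1, fun j => ?_, by
    rw [map_sub, map_pow, evP_X, h3, sub_self]⟩
  rw [coeff_sub, coeff_X_pow]
  refine sub_mem ?_ (h2 j)
  split_ifs with e
  · rw [e, sub_self]
    exact Hev.one_deg
  · exact zero_mem _

theorem map_injective_of_lh (hr : 0 < r) (h : Injective (H.lh p fun j : Fin r => ξ.1 ^ (j : ℕ))) :
    Injective (H.map p) := fun a b e => by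
  have := h (a₁ := Finsupp.single ⟨0, hr⟩ a) (a₂ := Finsupp.single ⟨0, hr⟩ b) (by
    rw [H.lh_single, H.lh_single, e])
  exact Finsupp.single_injective _ this

end lh

end Vale.Agent.P269.Ch
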