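import Vale.Agent.P269.Ch.Sp
import Vale.Agent.P269.Ch.Hev

set_option linter.all false

/-!
# Thom and Euler classes, bundle maps, exact sequences, frames
-/

namespace Vale.Agent.P269.Ch

open Set Function Topology Filter Vale.Agent.P291Z Vale.Agent.P269.Orb

variable {Y'' Y' Y : Sp}

instance [IsEmpty Y.T] : IsEmpty Y.X := ⟨fun x => IsEmpty.false (Y.out x)⟩

instance {X : Type} [TopologicalSpace X] [IsEmpty X] : Subsingleton (H X) := ⟨fun a b => by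
  obtain ⟨a, -, rfl⟩ := hcls_surj a
  obtain ⟨b, -, rfl⟩ := hcls_surj b
  rw [Subsingleton.elim a b]⟩

namespace VB

variable (E : VB Y)

/-- linear parametrizations of the fibres, upstairs -/
def chU (r : ℕ) (φ : (Fin r → ℂ) → E.V) : Prop :=
  ∃ (t : Y.T) (ℓ : (Fin r → ℂ) →ₗ[ℂ] E.W), Injective ℓ ∧ LinearMap.range ℓ = E.F t ∧
    ∀ a, (φ a).1 = (t, ℓ a)

theorem exists_lin (t : Y.T) :
    ∃ ℓ : (Fin E.r → ℂ) →ₗ[ℂ] E.W, Injective ℓ ∧ LinearMap.range ℓ = E.F t := by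
  obtain ⟨e⟩ : Nonempty ((Fin E.r → ℂ) ≃ₗ[ℂ] E.F t) :=
    FiniteDimensional.nonempty_linearEquiv_of_finrank_eq (by simp [E.rank])
  exact ⟨(E.F t).subtype ∘ₗ e.toLinearMap, (E.F t).injective_subtype.comp e.injective, by
    rw [LinearMap.range_comp, e.range, Submodule.map_subtype_top]⟩

theorem isVB : IsVB E.r (fun x : E.V => x.1.1) {x | x.1.2 = 0} E.chU := by
  refine ⟨by fun_prop, fun t₀ => ?_, ?_, ?_⟩
  · obtain ⟨N, ψ, q, h1, h2, h3, h4⟩ := E.exists_frame t₀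
    let Φ : N × (Fin E.r → ℂ) → E.V := fun x => ⟨(x.1, ψ x.1 x.2), ((h4 _ x.1.2).2 _).2 ⟨_, rfl⟩⟩
    have hΦ : Continuous Φ := (continuous_fst.subtype_val.prodMk
      ((h3.restrict.comp continuous_fst).clm_apply continuous_snd)).subtype_mk _
    have hr : range Φ = (fun x : E.V => x.1.1) ⁻¹' N := by
      ext ⟨⟨t, w⟩, hw⟩
      refine ⟨by rintro ⟨x, hx⟩; exact hx ▸ x.1.2, fun ht => ?_⟩
      obtain ⟨a, rfl⟩ := ((h4 t ht).2 w).1 hw
      exact ⟨(⟨t, ht⟩, a), rfl⟩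
    refine ⟨N, Φ, h2, ⟨h1, ⟨?_, by rw [hr]; exact h1.preimage (by fun_prop)⟩, hr, fun _ => rfl,
      fun x => ⟨fun h => ?_, fun h => ?_⟩⟩, fun y => ⟨y, ψ y, LeftInverse.injective (h4 _ y.2).1,
        Submodule.ext fun w => ((h4 _ y.2).2 w).symm, fun _ => rfl⟩⟩
    · exact Eul.isEmbedding_of_left (Ψ := fun x : E.V => (x.1.1, q x.1.2))
        (j := Prod.map Subtype.val id) (IsEmbedding.subtypeVal.prodMap IsEmbedding.id) hΦ
        (fun x => by fun_prop) fun x => Prod.ext rfl ((h4 _ x.1.2).1 _)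
    · rw [← (h4 _ x.1.2).1 x.2, show ψ _ x.2 = 0 from h, map_zero]
    · show ψ _ x.2 = 0
      rw [h, map_zero]
  · rintro r φ ⟨t, ℓ, h1, h2, -⟩
    rw [← E.rank t, ← h2, LinearMap.finrank_range_of_inj h1, Module.finrank_fin_fun]
  · rintro φ φ' ⟨t, ℓ, h1, h2, h3⟩ ⟨t', ℓ', h1', h2', h3'⟩ e
    simp only [h3, h3'] at e
    subst e
    let γ := (LinearEquiv.ofInjective ℓ h1).trans
      ((LinearEquiv.ofEq _ _ (h2.trans h2'.symm)).trans (LinearEquiv.ofInjective ℓ' h1').symm)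
    have hγ : ∀ a, ℓ' (γ a) = ℓ a := fun a =>
      congrArg Subtype.val ((LinearEquiv.ofInjective ℓ' h1').apply_symm_apply _)
    exact ⟨γ, funext fun a => Subtype.ext (by rw [comp_apply, h3, h3', hγ])⟩

/-- the zero section of the total space -/
def Z : Set E.tot.X := {x | ∃ y : E.V, y.1.2 = 0 ∧ x = Q.mk Y.G y}

/-- linear parametrizations of the fibres -/
def ch (r : ℕ) (φ : (Fin r → ℂ) → E.tot.X) : Prop := fib E.V r φ

variable {E} in
theorem mk_mem_Z {y : E.V} : E.tot.π y ∈ E.Z ↔ y.1.2 = 0 := by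
  refine ⟨?_, fun h => ⟨y, h, rfl⟩⟩
  rintro ⟨y', h, e⟩
  obtain ⟨g, rfl⟩ := Q.mk_eq.1 e.symm
  show g • y'.1.2 = 0
  rw [h, smul_zero]

variable {E} in
theorem ch_mk {r : ℕ} {t : Y.T} {ℓ : (Fin r → ℂ) →ₗ[ℂ] E.W} (h1 : Injective ℓ)
    (h2 : LinearMap.range ℓ = E.F t) :
    E.ch r fun a => E.tot.π (⟨(t, ℓ a), h2.le ⟨a, rfl⟩⟩ : E.V) :=
  ⟨t, ℓ, h1, fun w => by rw [mem_V, ← h2]; rfl, fun a => ⟨_, rfl⟩⟩

variable {E} in
theorem ch.elim {r : ℕ} {φ : (Fin r → ℂ) → E.tot.X} (h : E.ch r φ) :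
    ∃ (t : Y.T) (ℓ : (Fin r → ℂ) →ₗ[ℂ] E.W) (h1 : Injective ℓ) (h2 : LinearMap.range ℓ = E.F t),
      φ = fun a => E.tot.π (⟨(t, ℓ a), h2.le ⟨a, rfl⟩⟩ : E.V) := by
  obtain ⟨t, ℓ, h1, h2, h3⟩ := h
  exact ⟨t, ℓ, h1, Submodule.ext fun w => (h2 w).symm, funext fun a => (h3 a).2⟩

theorem isOVB : IsOVB E.r E.proj.map E.Z E.ch := by
  have := IsOVB.of_equivariant Y.orb E.isVB (fun _ _ => rfl) (by
    rintro g φ ⟨t, ℓ, h1, h2, h3⟩
    refine ⟨g • t, DistribSMul.toLinearMap ℂ E.W g ∘ₗ ℓ, (MulAction.injective g).comp h1,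
      Submodule.ext fun w => ⟨?_, fun hw => ?_⟩, fun a => ?_⟩
    · rintro ⟨a, rfl⟩
      exact E.inv g _ _ (h2.le ⟨a, rfl⟩)
    · obtain ⟨a, ha⟩ := h2.ge (E.smul_mem_iff.1 (show g • g⁻¹ • w ∈ _ by rwa [smul_inv_smul]))
      exact ⟨a, show g • ℓ a = w by rw [ha, smul_inv_smul]⟩
    · show g • (φ a).1 = _
      rw [h3]
      rfl) E.tot.isQuo Y.isQuo E.proj.map_π
  convert this using 1
  · ext x
    exact ⟨fun ⟨y, h1, h2⟩ => ⟨y, h1, h2.symm⟩, fun ⟨y, h1, h2⟩ => ⟨y, h1, h2.symm⟩⟩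
  · ext r φ
    constructor
    · intro h
      obtain ⟨t, ℓ, h1, h2, rfl⟩ := h.elim
      exact ⟨fun a => ⟨(t, ℓ a), h2.le ⟨a, rfl⟩⟩, ⟨t, ℓ, h1, h2, fun _ => rfl⟩, rfl⟩
    · rintro ⟨φ, ⟨t, ℓ, h1, h2, h3⟩, rfl⟩
      rw [show φ = fun a => ⟨(t, ℓ a), h2.le ⟨a, rfl⟩⟩ from funext fun a => Subtype.ext (h3 a)]
      exact ch_mk h1 h2

/-- the Thom cocycle -/
noncomputable def th : Coch E.tot.X := thom E.V

theorem isThom : IsThom E.Z E.ch E.th := E.isOVB.epsilon_spec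

theorem th_cocycle : supp (δ E.th) = ∅ := E.isThom.1

theorem th_supp : supp E.th ⊆ E.Z := E.isThom.2.1

theorem th_deg : IsDeg (2 * E.r) E.th := E.isOVB.thom_deg E.isThom

variable {E} in
theorem hcls_eq_th {t : Coch E.tot.X} (ht : IsThom E.Z E.ch t) : hcls t = hcls E.th := by
  obtain ⟨c, -, hc⟩ := E.isOVB.thom_unique ht E.isThom
  exact hcls_eq_of_cohom E.th_cocycle hc

/-- the Euler class -/
noncomputable def eu : Hev Y.X :=
  ⟨H.map E.zero.map (hcls E.th), mem_Hev ((hcls_isDeg E.th_deg).map _)⟩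

theorem eu_deg : E.eu ∈ Hev.deg Y.X E.r := (hcls_isDeg E.th_deg).map _

theorem homotopic_zero : (E.zero.map.comp E.proj.map).Homotopic (ContinuousMap.id _) := by
  let φ : unitInterval × E.V → E.V := fun z =>
    ⟨(z.2.1.1, ((z.1 : ℝ) : ℂ) • z.2.1.2), (E.F _).smul_mem _ z.2.2⟩
  have hφ : Continuous φ := Continuous.subtype_mk (by fun_prop) _
  have h : ∀ (s : unitInterval) (y : E.V), E.tot.π (φ (s, E.tot.out (E.tot.π y))) = E.tot.π (φ (s, y)) :=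
    fun s y => by
      obtain ⟨g, hg⟩ := E.tot.exists_out y
      rw [← hg, ← E.tot.π_smul g (φ (s, y))]
      exact congrArg E.tot.π (Subtype.ext (Prod.ext rfl (E.comm.smul_comm g _ y.1.2).symm))
  refine ⟨⟨⟨fun z => E.tot.π (φ (z.1, E.tot.out z.2)),
    (IsOpenQuotientMap.id.prodMap E.tot.quo).isQuotientMap.continuous_iff.2 ?_⟩, fun x => ?_,
    fun x => ?_⟩⟩
  · exact (E.tot.cont.comp hφ).congr fun z => (h z.1 z.2).symm
  · obtain ⟨y, rfl⟩ := E.tot.surj x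
    refine (h 0 y).trans ?_
    rw [ContinuousMap.comp_apply, Mor.map_π, Mor.map_π]
    exact congrArg E.tot.π (Subtype.ext (Prod.ext rfl (by simp [φ]; rfl)))
  · obtain ⟨y, rfl⟩ := E.tot.surj x
    exact (h 1 y).trans (congrArg E.tot.π (Subtype.ext (Prod.ext rfl (by simp [φ]))))

variable {E} in
theorem IsSec.proj_map {s : Y.T → E.W} (h : E.IsSec s) (x : Y.X) : E.proj.map (h.mor.map x) = x := by
  obtain ⟨t, rfl⟩ := Y.surj x
  rw [Mor.map_π, Mor.map_π]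
  rfl

theorem map_proj_zero (c : H E.tot.X) : H.map E.proj.map (H.map E.zero.map c) = c := by
  rw [H.map_map, H.map_eq_of_homotopic E.homotopic_zero]
  exact H.map_id (fun _ => rfl) c

/-- all continuous sections induce the same map in cohomology -/
theorem map_section {σ : C(Y.X, E.tot.X)} (h : ∀ x, E.proj.map (σ x) = x) (c : H E.tot.X) :
    H.map σ c = H.map E.zero.map c := by
  conv_lhs => rw [← E.map_proj_zero c, H.map_map]
  exact H.map_id h _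

theorem proj_bijective : Bijective (H.map E.proj.map) :=
  bijective_iff_has_inverse.2 ⟨H.map E.zero.map, fun c => by
    rw [H.map_map]; exact H.map_id E.isSec_zero.proj_map c, E.map_proj_zero⟩

theorem eu_eq {t : Coch E.tot.X} (ht : IsThom E.Z E.ch t) {σ : C(Y.X, E.tot.X)}
    (h : ∀ x, E.proj.map (σ x) = x) : hcls (pull σ t) = E.eu := by
  rw [← H.map_hcls σ ht.1, hcls_eq_th ht, E.map_section h]
  rfl

variable {E} in
/-- the Euler cocycle of a section -/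
noncomputable def IsSec.eul {s : Y.T → E.W} (h : E.IsSec s) : Coch Y.X := P291Z.pull h.mor.map E.th

variable {E} in
theorem IsSec.isCo {s : Y.T → E.W} (h : E.IsSec s) : IsCo (Y.π '' {t | s t = 0}) E.r h.eul :=
  ⟨cocycle_pull h.mor.map.continuous E.th_cocycle, E.th_deg.pull _, fun x hx => by
    obtain ⟨t, rfl⟩ := Y.surj x
    have : h.mor.map (Y.π t) ∈ E.Z := E.th_supp (supp_pull h.mor.map.continuous _ hx)
    rw [Mor.map_π] at this
    exact ⟨t, mk_mem_Z.1 this, rfl⟩⟩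

variable {E} in
theorem IsSec.hcls_eul {s : Y.T → E.W} (h : E.IsSec s) : hcls h.eul = E.eu :=
  E.eu_eq E.isThom h.proj_map

variable {E} in
/-- a bundle with a nowhere vanishing section has zero Euler class -/
theorem IsSec.eu_eq_zero {s : Y.T → E.W} (h : E.IsSec s) (h0 : ∀ t, s t ≠ 0) : E.eu = 0 := by
  refine Subtype.ext (h.hcls_eul.symm.trans ?_)
  refine (hcls_eq_of_null cocycle_zero fun x hx => ?_).trans hcls_zero
  rw [sub_zero] at hx
  obtain ⟨t, ht, -⟩ := h.isCo.supp hx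
  exact h0 t ht

theorem eu_eq_one (h : E.r = 0) : E.eu = 1 := by
  have h1 : IsThom E.Z E.ch 1 := E.isOVB.isThom_of cocycle_one (fun x _ => by
    obtain ⟨y, rfl⟩ := E.tot.surj x
    have h2 : E.F y.1.1 = ⊥ := Submodule.finrank_eq_zero.1 ((E.rank _).trans h)
    exact mk_mem_Z.2 (h2.le y.2)) (isDeg_one.cast (by simp [h])) fun x => by
      obtain ⟨φ, h2, h3⟩ := E.isOVB.exists_chart x
      refine ⟨φ, h2, h3, ?_⟩
      rw [map_one]
      generalize E.r = r at h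
      subst h
      rw [tau_zero]
  refine Subtype.ext ((E.eu_eq h1 E.isSec_zero.proj_map).symm.trans ?_)
  rw [map_one, hcls_one]
  rfl

end VB

/-- A map of bundles over `m`, linear on the fibres. -/
structure Hom (m : Mor Y' Y) (E' : VB Y') (E : VB Y) (A : Y'.T → E'.W →ₗ[ℂ] E.W) : Prop where
  mem : ∀ t w, w ∈ E'.F t → A t w ∈ E.F (m.f t)
  cont : Continuous fun x : E'.V => A x.1.1 x.1.2
  eqv : ∀ (g : Y'.G) t w, w ∈ E'.F t → A (g • t) (g • w) = m.ρ g • A t w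

/-- A map of bundles that is bijective on the fibres. -/
structure Iso (m : Mor Y' Y) (E' : VB Y') (E : VB Y) (A : Y'.T → E'.W →ₗ[ℂ] E.W) : Prop
    extends Hom m E' E A where
  inj : ∀ t w, w ∈ E'.F t → A t w = 0 → w = 0
  surj : ∀ t w, w ∈ E.F (m.f t) → ∃ w' ∈ E'.F t, A t w' = w

/-- A short exact sequence of bundles. -/
structure Exact (E' E E'' : VB Y) (A : Y.T → E'.W →ₗ[ℂ] E.W) (B : Y.T → E.W →ₗ[ℂ] E''.W) :
    Prop where
  hA : Hom (Mor.id Y) E' E A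
  hB : Hom (Mor.id Y) E E'' B
  inj : ∀ t w, w ∈ E'.F t → A t w = 0 → w = 0
  surj : ∀ t w, w ∈ E''.F t → ∃ w' ∈ E.F t, B t w' = w
  ex : ∀ t w, w ∈ E.F t → (B t w = 0 ↔ ∃ w' ∈ E'.F t, A t w' = w)

section hom

variable {m : Mor Y' Y} {m' : Mor Y'' Y'} {E'' : VB Y''} {E' : VB Y'} {E : VB Y}
  {A : Y'.T → E'.W →ₗ[ℂ] E.W} {A' : Y''.T → E''.W →ₗ[ℂ] E'.W}

theorem Hom.of_continuous (mem : ∀ t w, w ∈ E'.F t → A t w ∈ E.F (m.f t))
    (cont : Continuous fun x : Y'.T × E'.W => A x.1 x.2)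
    (eqv : ∀ (g : Y'.G) t w, w ∈ E'.F t → A (g • t) (g • w) = m.ρ g • A t w) : Hom m E' E A :=
  ⟨mem, cont.comp continuous_subtype_val, eqv⟩

theorem Hom.continuous (h : Hom m E' E A) {Z : Type*} [TopologicalSpace Z] {f : Z → Y'.T}
    {g : Z → E'.W} (hf : Continuous f) (hg : Continuous g) (hm : ∀ z, g z ∈ E'.F (f z)) :
    Continuous fun z => A (f z) (g z) :=
  h.cont.comp ((hf.prodMk hg).subtype_mk (p := fun x => x ∈ E'.V) hm)

/-- the morphism of total spaces -/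
def Hom.mor (h : Hom m E' E A) : Mor E'.tot E.tot :=
  ⟨m.ρ, fun x : E'.V => (⟨(m.f x.1.1, A x.1.1 x.1.2), h.mem _ _ x.2⟩ : E.V), m.cρ,
    ((m.cf.comp (by fun_prop)).prodMk h.cont).subtype_mk _,
    fun g x => Subtype.ext (Prod.ext (m.eqv g _) (h.eqv g _ _ x.2))⟩

theorem Hom.comp (h : Hom m E' E A) (h' : Hom m' E'' E' A') :
    Hom (m.comp m') E'' E fun t => A (m'.f t) ∘ₗ A' t :=
  ⟨fun t w hw => h.mem _ _ (h'.mem t w hw),
    h.continuous (m'.cf.comp (by fun_prop)) h'.cont fun x => h'.mem _ _ x.2, fun g t w hw => by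
      show A (m'.f (g • t)) (A' (g • t) (g • w)) = m.ρ (m'.ρ g) • A (m'.f t) (A' t w)
      rw [h'.eqv g t w hw, m'.eqv, h.eqv _ _ _ (h'.mem t w hw)]⟩

theorem Iso.comp (h : Iso m E' E A) (h' : Iso m' E'' E' A') :
    Iso (m.comp m') E'' E fun t => A (m'.f t) ∘ₗ A' t :=
  ⟨h.toHom.comp h'.toHom, fun t w hw e => h'.inj t w hw (h.inj _ _ (h'.mem t w hw) e),
    fun t w hw => by
      obtain ⟨w', h1, rfl⟩ := h.surj _ w hw
      obtain ⟨w'', h2, rfl⟩ := h'.surj t w' h1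
      exact ⟨w'', h2, rfl⟩⟩

theorem finrank_map_of_inj {W W' : Type} [AddCommGroup W] [Module ℂ W] [AddCommGroup W']
    [Module ℂ W'] {S : Submodule ℂ W} {f : W →ₗ[ℂ] W'} (h : ∀ w ∈ S, f w = 0 → w = 0) :
    Module.finrank ℂ (S.map f) = Module.finrank ℂ S := by
  rw [← LinearMap.range_domRestrict, LinearMap.finrank_range_of_inj]
  exact (injective_iff_map_eq_zero _).2 fun w hw => Subtype.ext (h w.1 w.2 hw)

theorem Iso.map_eq (h : Iso m E' E A) (t : Y'.T) : (E'.F t).map (A t) = E.F (m.f t) :=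
  le_antisymm (by rintro _ ⟨w, hw, rfl⟩; exact h.mem t w hw) fun w hw => h.surj t w hw

theorem Iso.rank (h : Iso m E' E A) (t : Y'.T) : E'.r = E.r := by
  rw [← E'.rank t, ← E.rank (m.f t), ← h.map_eq, finrank_map_of_inj (h.inj t)]

theorem Iso.of_inj (h : Hom m E' E A) (inj : ∀ t w, w ∈ E'.F t → A t w = 0 → w = 0)
    (hr : E'.r = E.r) : Iso m E' E A :=
  ⟨h, inj, fun t => (Submodule.eq_of_le_of_finrank_eq (S₁ := (E'.F t).map (A t))
    (by rintro _ ⟨w, hw, rfl⟩; exact h.mem t w hw)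
    (by rw [finrank_map_of_inj (inj t), E'.rank, E.rank, hr])).ge⟩

theorem Iso.of_surj (h : Hom m E' E A)
    (surj : ∀ t w, w ∈ E.F (m.f t) → ∃ w' ∈ E'.F t, A t w' = w) (hr : E'.r = E.r) :
    Iso m E' E A := by
  refine ⟨h, fun t w hw e => ?_, surj⟩
  have h1 : Surjective ((A t).restrict (h.mem t)) := fun w => by
    obtain ⟨w', h1, h2⟩ := surj t w.1 w.2
    exact ⟨⟨w', h1⟩, Subtype.ext h2⟩
  have h2 := (LinearMap.injective_iff_surjective_of_finrank_eq_finrank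
    (by rw [E'.rank, E.rank, hr])).2 h1
  exact congrArg Subtype.val ((injective_iff_map_eq_zero _).1 h2 ⟨w, hw⟩ (Subtype.ext e))

theorem Iso.ch (h : Iso m E' E A) {r : ℕ} {φ : (Fin r → ℂ) → E'.tot.X} (hφ : E'.ch r φ) :
    E.ch r (h.mor.map ∘ φ) := by
  obtain ⟨t, ℓ, h1, h2, rfl⟩ := hφ.elim
  have := VB.ch_mk (E := E) (t := m.f t) (ℓ := A t ∘ₗ ℓ)
    ((injective_iff_map_eq_zero _).2 fun a ha =>
      (injective_iff_map_eq_zero _).1 h1 a (h.inj t _ (h2.le ⟨a, rfl⟩) ha))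
    (by rw [LinearMap.range_comp, h2, h.map_eq])
  convert this using 1
  exact funext fun a => h.mor.map_π _

theorem Iso.isThom (h : Iso m E' E A) {t : Coch E.tot.X} (ht : IsThom E.Z E.ch t) :
    IsThom E'.Z E'.ch (pull h.mor.map t) :=
  ht.pull h.mor.map.continuous (fun x hx => by
    obtain ⟨y, rfl⟩ := E'.tot.surj x
    rw [mem_preimage, Mor.map_π] at hx
    exact VB.mk_mem_Z.2 (h.inj _ _ y.2 (VB.mk_mem_Z.1 hx))) fun r φ => h.ch

theorem Hom.zero_map (h : Hom m E' E A) : h.mor.map.comp E'.zero.map = E.zero.map.comp m.map := by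
  rw [← Mor.map_comp, ← Mor.map_comp]
  exact Mor.map_ext fun t => congrArg E.tot.π (Subtype.ext (Prod.ext rfl (map_zero (A t))))

/-- **Naturality of the Euler class** -/
theorem Iso.eu (h : Iso m E' E A) : E'.eu = Hev.map m.map E.eu := Subtype.ext (by
  show H.map E'.zero.map (hcls E'.th) = H.map m.map (H.map E.zero.map (hcls E.th))
  rw [← VB.hcls_eq_th (h.isThom E.isThom), ← H.map_hcls _ E.th_cocycle, H.map_map, H.map_map,
    h.zero_map])

theorem Hev.map_mor_id (c : Hev Y.X) : Hev.map (Mor.id Y).map c = c := Hev.map_id (Mor.map_id Y) c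

theorem Iso.eu' {E' E : VB Y} {A : Y.T → E'.W →ₗ[ℂ] E.W} (h : Iso (Mor.id Y) E' E A) :
    E'.eu = E.eu := h.eu.trans (Hev.map_mor_id _)

theorem iso_pb (E : VB Y) (m : Mor Y' Y) : Iso m (E.pb m) E fun _ => LinearMap.id :=
  ⟨Hom.of_continuous (fun _ _ h => h) continuous_snd fun _ _ _ _ => rfl, fun _ _ _ h => h,
    fun _ w h => ⟨w, h, rfl⟩⟩

theorem VB.eu_pb (E : VB Y) (m : Mor Y' Y) : (E.pb m).eu = Hev.map m.map E.eu :=
  (iso_pb E m).eu

theorem Hom.pb (h : Hom m E' E A) : Hom (Mor.id Y') E' (E.pb m) A := ⟨h.mem, h.cont, h.eqv⟩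

theorem Iso.pb (h : Iso m E' E A) : Iso (Mor.id Y') E' (E.pb m) A :=
  ⟨h.toHom.pb, h.inj, h.surj⟩

end hom

section sum

variable (E₁ E₂ : VB Y)

theorem hom_fst : Hom (Mor.id Y) (E₁.sum E₂) E₁ fun _ => LinearMap.fst ℂ E₁.W E₂.W :=
  Hom.of_continuous (fun _ _ h => h.1) (continuous_fst.comp continuous_snd) fun _ _ _ _ => rfl

theorem hom_snd : Hom (Mor.id Y) (E₁.sum E₂) E₂ fun _ => LinearMap.snd ℂ E₁.W E₂.W :=
  Hom.of_continuous (fun _ _ h => h.2) (continuous_snd.comp continuous_snd) fun _ _ _ _ => rfl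

theorem isThom_sum : IsThom (E₁.sum E₂).Z (E₁.sum E₂).ch
    (pull (hom_fst E₁ E₂).mor.map E₁.th * pull (hom_snd E₁ E₂).mor.map E₂.th) := by
  refine IsOVB.isThom_sum (m := E₁.r) (n := E₂.r) (E₁.sum E₂).isOVB (Mor.map _).continuous
    (Mor.map _).continuous (fun x hx => ?_) E₁.isThom E₁.th_deg E₂.isThom E₂.th_deg fun x => ?_
  · obtain ⟨y, rfl⟩ := (E₁.sum E₂).tot.surj x
    obtain ⟨h1, h2⟩ := hx
    rw [mem_preimage, Mor.map_π] at h1 h2
    exact VB.mk_mem_Z.2 (Prod.ext (VB.mk_mem_Z.1 h1) (VB.mk_mem_Z.1 h2))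
  · obtain ⟨t, rfl⟩ := Y.surj x
    obtain ⟨ℓ₁, h1, h1'⟩ := E₁.exists_lin t
    obtain ⟨ℓ₂, h2, h2'⟩ := E₂.exists_lin t
    let e : (Fin (E₁.r + E₂.r) → ℂ) →ₗ[ℂ] (Fin E₁.r → ℂ) × (Fin E₂.r → ℂ) :=
      (LinearMap.funLeft ℂ ℂ (Fin.castAdd E₂.r)).prod (LinearMap.funLeft ℂ ℂ (Fin.natAdd E₁.r))
    have he : Bijective e := (isHomeomorph_append (E := ℂ) E₁.r E₂.r).bijective
    have c₁ := VB.ch_mk h1 h1'
    have c₂ := VB.ch_mk h2 h2'
    refine ⟨_, _, _, VB.ch_mk (E := E₁.sum E₂) (t := t) (ℓ := ℓ₁.prodMap ℓ₂ ∘ₗ e)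
      ((h1.prodMap h2).comp he.1) (by
        rw [LinearMap.range_comp_of_range_eq_top _ (LinearMap.range_eq_top.2 he.2),
          LinearMap.range_prodMap, h1', h2']), c₁, c₂, Mor.map_π _ _, fun z => Mor.map_π _ _, fun z => Mor.map_π _ _,
      (E₁.isOVB.isGen_chart E₁.isThom c₁).mem, (E₂.isOVB.isGen_chart E₂.isThom c₂).mem⟩

/-- the Euler class of a direct sum -/
theorem VB.eu_sum : (E₁.sum E₂).eu = E₁.eu * E₂.eu := by
  refine Subtype.ext (((E₁.sum E₂).eu_eq (isThom_sum E₁ E₂)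
    (E₁.sum E₂).isSec_zero.proj_map).symm.trans ?_)
  have h1 := cocycle_pull (hom_fst E₁ E₂).mor.map.continuous E₁.th_cocycle
  have h2 := cocycle_pull (hom_snd E₁ E₂).mor.map.continuous E₂.th_cocycle
  rw [← H.map_hcls _ (cocycle_mul h1 h2), hcls_mul h1 h2, map_mul, ← H.map_hcls _ E₁.th_cocycle,
    ← H.map_hcls _ E₂.th_cocycle, H.map_map, H.map_map]
  erw [(hom_fst E₁ E₂).zero_map, (hom_snd E₁ E₂).zero_map]
  rw [← H.map_map, ← H.map_map, H.map_id (Mor.map_id Y), H.map_id (Mor.map_id Y)]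
  rfl

end sum

section exact

variable {E' E E'' : VB Y} {A : Y.T → E'.W →ₗ[ℂ] E.W} {B : Y.T → E.W →ₗ[ℂ] E''.W}

theorem Hom.isClosed_ker {m : Mor Y Y'} {E'' : VB Y'} {B : Y.T → E.W →ₗ[ℂ] E''.W}
    (h : Hom m E E'' B) : IsClosed {x : Y.T × E.W | x.2 ∈ E.F x.1 ⊓ LinearMap.ker (B x.1)} := by
  convert E.closed.isClosedEmbedding_subtypeVal.isClosedMap _
    (isClosed_eq h.cont (continuous_const (y := 0))) using 1
  ext x
  exact ⟨fun hx => ⟨⟨x, hx.1⟩, hx.2, rfl⟩, by rintro ⟨y, hy, rfl⟩; exact ⟨y.2, hy⟩⟩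

/-- the kernel of a bundle map of constant rank -/
@[reducible] def Hom.ker {m : Mor Y Y'} {E'' : VB Y'} {B : Y.T → E.W →ₗ[ℂ] E''.W} (h : Hom m E E'' B) (k : ℕ)
    (hk : ∀ t, Module.finrank ℂ (E.F t ⊓ LinearMap.ker (B t) : Submodule ℂ E.W) = k) : VB Y :=
  E.sub (fun t => E.F t ⊓ LinearMap.ker (B t)) k h.isClosed_ker hk fun g t w hw =>
    ⟨E.inv g t w hw.1, by
      rw [SetLike.mem_coe, LinearMap.mem_ker, h.eqv g t w hw.1, hw.2, smul_zero]⟩

theorem Exact.map_eq (h : Exact E' E E'' A B) (t : Y.T) :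
    (E'.F t).map (A t) = E.F t ⊓ LinearMap.ker (B t) :=
  le_antisymm (by
    rintro _ ⟨w, hw, rfl⟩
    exact ⟨h.hA.mem t w hw, (h.ex t _ (h.hA.mem t w hw)).2 ⟨w, hw, rfl⟩⟩)
    fun w hw => (h.ex t w hw.1).1 hw.2

/-- the image of the first map -/
@[reducible] def Exact.K (h : Exact E' E E'' A B) : VB Y :=
  h.hB.ker E'.r fun t => by rw [← h.map_eq, finrank_map_of_inj (h.inj t), E'.rank]

theorem Exact.iso_K (h : Exact E' E E'' A B) : Iso (Mor.id Y) E' h.K A :=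
  ⟨⟨fun t w hw => (h.map_eq t).le ⟨w, hw, rfl⟩, h.hA.cont, h.hA.eqv⟩, h.inj,
    fun t w hw => (h.map_eq t).ge hw⟩

theorem Exact.iso_sum (h : Exact E' E E'' A B) :
    Iso (Mor.id Y) E (h.K.sum E'') fun t => (h.K.P t : E.W →ₗ[ℂ] E.W).prod (B t) := by
  refine ⟨⟨fun t w hw => ⟨h.K.P_mem t w, h.hB.mem t w hw⟩,
    (h.K.continuous_P (by fun_prop) (continuous_snd.comp continuous_subtype_val)).prodMk h.hB.cont,
    fun g t w hw => Prod.ext (h.K.P_smul g t w) (h.hB.eqv g t w hw)⟩, fun t w hw e => ?_,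
    fun t w hw => ?_⟩
  · exact (h.K.P_eq (t := t) ⟨hw, congrArg Prod.snd e⟩).symm.trans (congrArg Prod.fst e)
  · obtain ⟨v, h1, h2⟩ := h.surj t w.2 hw.2
    have h3 : w.1 - h.K.P t v ∈ h.K.F t := sub_mem hw.1 (h.K.P_mem t v)
    refine ⟨v + (w.1 - h.K.P t v), add_mem h1 h3.1, Prod.ext ?_ ?_⟩
    · show h.K.P t (v + (w.1 - h.K.P t v)) = w.1
      rw [map_add, h.K.P_eq h3, add_sub_cancel]
    · show B t (v + (w.1 - h.K.P t v)) = w.2
      rw [map_add, h3.2, add_zero, h2]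

theorem Exact.rank (h : Exact E' E E'' A B) (t : Y.T) : E.r = E'.r + E''.r := h.iso_sum.rank t

/-- **The Euler class is multiplicative** -/
theorem Exact.eu (h : Exact E' E E'' A B) : E.eu = E'.eu * E''.eu := by
  rw [h.iso_sum.eu', VB.eu_sum, h.iso_K.eu']

theorem Exact.of_rank (hA : Hom (Mor.id Y) E' E A) (hB : Hom (Mor.id Y) E E'' B)
    (inj : ∀ t w, w ∈ E'.F t → A t w = 0 → w = 0)
    (surj : ∀ t w, w ∈ E''.F t → ∃ w' ∈ E.F t, B t w' = w)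
    (comp : ∀ t w, w ∈ E'.F t → B t (A t w) = 0) (hr : E.r = E'.r + E''.r) : Exact E' E E'' A B := by
  refine ⟨hA, hB, inj, surj, fun t w hw => ⟨fun h0 => ?_, by
    rintro ⟨w', h1, rfl⟩; exact comp t w' h1⟩⟩
  have h1 := LinearMap.finrank_range_add_finrank_ker ((B t).domRestrict (E.F t))
  rw [LinearMap.range_domRestrict, show (E.F t).map (B t) = E''.F t from le_antisymm
    (by rintro _ ⟨w, hw, rfl⟩; exact hB.mem t w hw) (surj t), E''.rank, E.rank, hr,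
    LinearMap.ker_domRestrict, ← Submodule.finrank_map_subtype_eq, Submodule.map_comap_subtype]
    at h1
  exact (Submodule.eq_of_le_of_finrank_eq (S₁ := (E'.F t).map (A t))
    (S₂ := E.F t ⊓ LinearMap.ker (B t))
    (by rintro _ ⟨w, hw, rfl⟩; exact ⟨hA.mem t w hw, comp t w hw⟩)
    (by rw [finrank_map_of_inj (inj t), E'.rank]; omega)).ge ⟨hw, h0⟩

theorem exact_sum (E₁ E₂ : VB Y) : Exact E₁ (E₁.sum E₂) E₂ (fun _ => LinearMap.inl ℂ E₁.W E₂.W)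
    fun _ => LinearMap.snd ℂ E₁.W E₂.W :=
  ⟨Hom.of_continuous (fun _ _ h => ⟨h, zero_mem _⟩) (continuous_snd.prodMk continuous_const)
    fun g _ _ _ => Prod.ext rfl (smul_zero g).symm, hom_snd E₁ E₂,
    fun _ _ _ h => congrArg Prod.fst h, fun _ w h => ⟨(0, w), ⟨zero_mem _, h⟩, rfl⟩,
    fun _ w h => ⟨fun e => ⟨w.1, h.1, Prod.ext rfl e.symm⟩, by rintro ⟨v, -, rfl⟩; rfl⟩⟩

end exact

end Vale.Agent.P269.Ch
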